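import Vale.Agent.P073Y.Wh.ColH
import Vale.Agent.P073Y.Bd.Bas
import Vale.Agent.P073Y.Bd.Map
import Vale.Agent.P073Y.Bd.Glue
import Vale.Agent.P073Y.Bd.Cups
import Vale.Agent.P073Y.Bd.Cellm

/-!
# The model in a cell with a constant which does not depend on the number of circles
-/

open Set Metric Topology Filter
open scoped NNReal

namespace P073.Wh

open P073.Bd P073.Bd.CupsA P073.Bd.Cellm

namespace Ch

/-- the oscillation on the boundary of the cube -/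
theorem osc_cube {F : (Fin 3 → ℝ) → ℝ} {Λ : ℝ≥0} (h : PwLip Λ F (sphere 0 1)) :
    ∀ x ∈ sphere (0 : Fin 3 → ℝ) 1, |F x - F 1| ≤ 4 * Λ := by
  have face : ∀ (i : Fin 3) (x y : Fin 3 → ℝ), ‖x‖ ≤ 1 → ‖y‖ ≤ 1 → |x i| = 1 → y i = x i →
      |F x - F y| ≤ 2 * Λ := fun i x y hx hy hi e => by
    have cv : Convex ℝ (closedBall (0 : Fin 3 → ℝ) 1 ∩ {z | z i = x i}) :=
      (convex_closedBall _ _).inter fun u hu v hv s t _ _ hst => by
        change s * u i + t * v i = x i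
        rw [show u i = x i from hu, show v i = x i from hv, ← add_mul, hst, one_mul]
    have sub : closedBall (0 : Fin 3 → ℝ) 1 ∩ {z | z i = x i} ⊆ sphere 0 1 := fun z hz => by
      refine mem_sphere_zero_iff_norm.2 (le_antisymm (mem_closedBall_zero_iff.1 hz.1) ?_)
      have h1 := norm_le_pi_norm z i
      rwa [show z i = x i from hz.2, Real.norm_eq_abs, hi] at h1
    obtain ⟨𝒞, h1, h2⟩ := h
    have h3 := (lipg.1 cv ⟨𝒞, h1, sub.trans h2⟩).dist_le_mul x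
      ⟨mem_closedBall_zero_iff.2 hx, rfl⟩ y ⟨mem_closedBall_zero_iff.2 hy, e⟩
    have h4 : dist x y ≤ 2 := by
      rw [dist_eq_norm]
      linarith [norm_sub_le x y]
    rw [Real.dist_eq] at h3
    nlinarith [Λ.coe_nonneg]
  intro x hx
  have hx1 := mem_sphere_zero_iff_norm.1 hx
  obtain ⟨i, hi⟩ : ∃ i, |x i| = 1 := by
    by_contra hn
    have : ‖x‖ < 1 := (pi_norm_lt_iff one_pos).2 fun i =>
      lt_of_le_of_ne (hx1 ▸ norm_le_pi_norm x i) fun e => hn ⟨i, e⟩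
    exact this.ne hx1
  have hv : ‖Function.update (1 : Fin 3 → ℝ) i (x i)‖ ≤ 1 :=
    (pi_norm_le_iff_of_nonneg zero_le_one).2 fun j => by
      by_cases e : j = i
      · simp [e, hi]
      · simp [e]
  obtain ⟨j, hj⟩ := exists_ne i
  have h1 := face i x _ hx1.le hv hi (by simp)
  have h2 := face j _ 1 hv (by simp) (by simp [hj]) (by simp [hj])
  linarith [abs_sub_le (F x) (F (Function.update (1 : Fin 3 → ℝ) i (x i))) (F 1)]

variable {E : Type} [NormedAddCommGroup E] [NormedSpace ℝ E]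

/-- the oscillation on the boundary of a cell -/
theorem osc {C S : Set E} {M₁ M₂ L : ℝ≥0} {f : E → ℝ} (hch : Chart 3 C S M₁ M₂)
    (h : PwLip L f S) {x y : E} (hx : x ∈ S) (hy : y ∈ S) : f x - f y ≤ 8 * (M₂ * L) := by
  classical
  obtain ⟨hSC, φ, hφ, -, hM⟩ := hch
  obtain ⟨𝒞, h1, h2⟩ := h
  have hm : ∀ z ∈ sphere (0 : Fin 3 → ℝ) 1, φ.invFun z ∈ S := fun z hz => by
    rw [← hφ] at hz
    obtain ⟨u, hu, rfl⟩ := hz
    rwa [φ.left_inv (hSC hu)]
  have key := osc_cube (F := f ∘ φ.invFun) (Λ := L * M₂)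
    ⟨𝒞.image fun Y => sphere 0 1 ∩ φ.invFun ⁻¹' Y, fun Y hY => by
      obtain ⟨Z, hZ, rfl⟩ := Finset.mem_image.1 hY
      exact ⟨(φ.cont_inv.mono sphere_subset_closedBall).preimage_isClosed_of_isClosed
        isClosed_sphere (h1 Z hZ).1, (h1 Z hZ).2.comp
          (hM.mono (inter_subset_left.trans sphere_subset_closedBall)) fun z hz => hz.2⟩,
      fun z hz => by
        obtain ⟨Z, hZ, hZ'⟩ := mem_iUnion₂.1 (h2 (hm z hz))
        exact mem_biUnion (Finset.mem_image_of_mem _ hZ) ⟨hz, hZ'⟩⟩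
  have a1 := key _ (hφ ▸ mem_image_of_mem φ.toFun hx)
  have a2 := key _ (hφ ▸ mem_image_of_mem φ.toFun hy)
  simp only [Function.comp, φ.left_inv (hSC hx), φ.left_inv (hSC hy), NNReal.coe_mul] at a1 a2
  linarith [(abs_le.1 a1).2, (abs_le.1 a2).1]

/-- few bands have a given point on their positive sides -/
theorem few {κ : Type} [Finite κ] {C S : Set E} {M₁ M₂ L : ℝ≥0} {b : κ → Band E} {fam : κ → Bool}
    {x₀ y : E} (hch : Chart 3 C S M₁ M₂) (hS : IsClosed S)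
    (hon : ∀ k, (b k).On S ∧ PwLip L (b k).u S)
    (hd : ∀ k l, k ≠ l → fam k = fam l → Disjoint (b k).B (b l).B) (hx₀ : x₀ ∈ S)
    (hneg : ∀ k, (b k).u x₀ = -1) (hy : y ∈ S) {A : Set κ} (hA : ∀ m ∈ A, 0 < (b m).u y) :
    (A.ncard : ℝ) ≤ 16 * (M₂ * L) := by
  classical
  have key : ∀ f : Bool, (({m ∈ A | fam m = f}.ncard : ℕ) : ℝ) ≤ 8 * (M₂ * L) := fun f => by
    have hf : {m ∈ A | fam m = f}.Finite := toFinite _
    have h1 := osc hch (lipg.2 hf.toFinset b hS (fun i _ => ⟨(hon i).1.upl.1,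
      (hon i).1.ok.cpt.isClosed, (hon i).2, (hon i).1.out⟩) fun i hi j hj hij =>
        hd i j hij ((hf.mem_toFinset.1 hi).2.trans (hf.mem_toFinset.1 hj).2.symm)) hy hx₀
    rw [ncard_eq_toFinset_card _ hf]
    refine le_trans ?_ h1
    rw [← Finset.sum_sub_distrib, Finset.card_eq_sum_ones, Nat.cast_sum]
    refine Finset.sum_le_sum fun i hi => ?_
    rw [hneg]
    have := hA i (hf.mem_toFinset.1 hi).1
    push_cast
    linarith
  have e : A = {m ∈ A | fam m = true} ∪ {m ∈ A | fam m = false} := by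
    ext m
    cases h : fam m <;> simp [h]
  have h1 := ncard_union_le {m ∈ A | fam m = true} {m ∈ A | fam m = false}
  rw [← e] at h1
  have h2 : (A.ncard : ℝ) ≤ ({m ∈ A | fam m = true}.ncard : ℕ) +
      ({m ∈ A | fam m = false}.ncard : ℕ) := by exact_mod_cast h1
  linarith [key true, key false]

/-- two disjoint bands which are not nested have disjoint positive sides -/
theorem apart [FiniteDimensional ℝ E] {S : Set E} {b b' : Band E} (hb : b.On S) (hb' : b'.On S)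
    (hd : Disjoint b.B b'.B) (hW : IsPreconnected b.W) (hW' : IsPreconnected b'.W)
    (hP : IsPreconnected {x ∈ S | 0 ≤ b'.u x}) (h1 : ∃ z ∈ b'.W, b.u z ≤ 0)
    (h2 : ∃ z ∈ b.W, b'.u z ≤ 0) : ∀ x ∈ S, b.u x = -1 ∨ b'.u x = -1 := by
  have key : ∀ {b b' : Band E}, b.On S → b'.On S → Disjoint b.B b'.B → IsPreconnected b'.W →
      (∃ z ∈ b'.W, b.u z ≤ 0) → ∀ x ∈ b'.B, b.u x = -1 := fun {b b'} hb hb' hd hW' h1 => by
    refine (const_sign ((bas E).pre hb'.ok hW').1 (hb.upl.1.mono hb'.sub) fun x hx =>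
      hb.out x (hb'.sub hx) fun h => disjoint_left.1 hd h hx).resolve_left fun h => ?_
    obtain ⟨z, hz, h3⟩ := h1
    rw [h z hz.1] at h3
    norm_num at h3
  have k1 := key hb hb' hd hW' h1
  have k2 := key hb' hb hd.symm hW h2
  have k3 : ∀ x ∈ {x ∈ S | 0 ≤ b'.u x}, b.u x = -1 := by
    refine (const_sign hP (hb.upl.1.mono (sep_subset _ _)) fun x hx =>
      hb.out x hx.1 fun h => ?_).resolve_left fun h => ?_
    · have := hx.2
      rw [k2 x h] at this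
      norm_num at this
    · obtain ⟨z, hz, h3⟩ := h1
      rw [h z ⟨hb'.sub hz.1, hz.2.ge⟩] at h3
      norm_num at h3
  intro x hx
  by_cases h : x ∈ b'.B
  · exact Or.inl (k1 x h)
  · rcases hb'.out x hx h with e | e
    · exact Or.inl (k3 x ⟨hx, by rw [e]; norm_num⟩)
    · exact Or.inr e

/-- a bounded ranking adapted to the nesting -/
theorem rank [FiniteDimensional ℝ E] {κ : Type} [Finite κ] {C S : Set E} {M₁ M₂ L : ℝ≥0}
    {b : κ → Band E} {fam : κ → Bool} {x₀ : E} (hch : Chart 3 C S M₁ M₂) (hS : IsClosed S)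
    (hon : ∀ k, (b k).On S ∧ PwLip L (b k).u S)
    (hd : ∀ k l, k ≠ l → fam k = fam l → Disjoint (b k).B (b l).B) (hx₀ : x₀ ∈ S)
    (hneg : ∀ k, (b k).u x₀ = -1) (hW : ∀ k, IsPreconnected (b k).W)
    (hball : ∀ k, ConBall 2 {x ∈ S | 0 ≤ (b k).u x} (b k).W ∧
      ConBall 2 {x ∈ S | (b k).u x ≤ 0} (b k).W) :
    ∃ (rk : κ → ℕ) (N : ℕ), (N : ℝ) ≤ 32 * (M₂ * L) + 2 ∧ (∀ k, rk k < N) ∧
      (∀ k l, k ≠ l → rk k = rk l → ∀ x ∈ S, (b k).u x = -1 ∨ (b l).u x = -1) ∧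
      ∀ k l, rk k < rk l → ∃ z ∈ (b l).W, (b k).u z ≤ 0 := by
  let A : κ → Set κ := fun k => {m | ∀ z ∈ (b k).W, 0 < (b m).u z}
  have hle : ∀ k, (A k).ncard ≤ ⌊16 * ((M₂ : ℝ) * L)⌋₊ := fun k => by
    obtain ⟨y, hy⟩ := bd_nonempty (hball k).1
    exact Nat.le_floor (few hch hS hon hd hx₀ hneg ((hon k).1.sub hy.1) fun m hm => hm y hy)
  have hlt : ∀ k l, (¬ ∃ z ∈ (b l).W, (b k).u z ≤ 0) → (A k).ncard < (A l).ncard := by
    intro k l h
    have hk : k ∈ A l := fun z hz => not_le.1 fun h' => h ⟨z, hz, h'⟩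
    refine ncard_lt_ncard ⟨fun m hm z hz => ?_, fun h' => ?_⟩ (toFinite _)
    · have h3 := nest (hon k).1.upl.1 (hball m).2.isConnected.isPreconnected hx₀
        (by rw [hneg]; norm_num) (by rw [hneg]; norm_num) fun x hx h0 => hm x (by
          rw [(bas E).on_W (hon k).1]
          exact ⟨hx, h0⟩)
      by_contra h4
      exact lt_asymm (hk z hz) (h3 z ((hon l).1.sub hz.1) (not_lt.1 h4))
    · obtain ⟨y, hy⟩ := bd_nonempty (hball k).1
      exact (h' hk y hy).ne' hy.2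
  have h0 := Nat.floor_le (show 0 ≤ 16 * ((M₂ : ℝ) * L) by positivity)
  generalize ⌊16 * ((M₂ : ℝ) * L)⌋₊ = N at *
  refine ⟨fun k => 2 * (N - (A k).ncard) + (fam k).toNat, 2 * N + 2, by push_cast; linarith,
    fun k => ?_, fun k l hkl h => ?_, fun k l h => ?_⟩
  · have := Bool.toNat_le (fam k)
    beta_reduce
    omega
  · beta_reduce at h
    have a1 := hle k
    have a2 := hle l
    have a3 := Bool.toNat_le (fam k)
    have a4 := Bool.toNat_le (fam l)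
    have hf : fam k = fam l := by
      have : (fam k).toNat = (fam l).toNat := by omega
      revert this
      cases fam k <;> cases fam l <;> simp
    refine apart (hon k).1 (hon l).1 (hd k l hkl hf) (hW k) (hW l)
      (hball l).1.isConnected.isPreconnected ?_ ?_
    · by_contra h1
      have := hlt k l h1
      omega
    · by_contra h1
      have := hlt l k h1
      omega
  · beta_reduce at h
    by_contra h1
    have := hlt k l h1
    have a1 := hle k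
    have a2 := hle l
    have a4 := Bool.toNat_le (fam l)
    omega

/-- cups with depths adapted to the nesting -/
theorem cups [FiniteDimensional ℝ E] {c : ℝ≥0} (h : COLH 2 c) {κ : Type} [Finite κ]
    {C S : Set E} {M₁ M₂ L : ℝ≥0} (b : κ → Band E) {fam : κ → Bool} {x₀ : E}
    (hch : Chart 3 C S M₁ M₂) (hS : IsClosed S) (hon : ∀ k, (b k).On S ∧ PwLip L (b k).u S)
    (hcomm : ∀ k l, k ≠ l → Comm (b k) (b l))
    (hfam : ∀ k l, k ≠ l → fam k = fam l → Disjoint (b k).B (b l).B) (hx₀ : x₀ ∈ S)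
    (hneg : ∀ k, (b k).u x₀ = -1) (hcirc : ∀ k, IsCircle (b k).W)
    (hball : ∀ k, ConBall 2 {x ∈ S | 0 ≤ (b k).u x} (b k).W ∧
      ConBall 2 {x ∈ S | (b k).u x ≤ 0} (b k).W) :
    ∃ a : κ → Band E,
      (∀ k, (a k).On C ∧ Ext (a k) (b k).half S ∧
        LipschitzOnWith (33 * c * M₁ * (M₂ * L + 1)) (a k).u C ∧ ConBall 2 (a k).W (b k).W) ∧
      (∀ k l, k ≠ l → Comm (a k) (a l)) ∧
      (∀ k l, k ≠ l → ((∀ x ∈ (b l).B, (b k).u x = 1) ∨ ∀ x ∈ (b l).B, (b k).u x = -1) →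
        ((∀ x ∈ (b k).B, (b l).u x = 1) ∨ ∀ x ∈ (b k).B, (b l).u x = -1) →
        Disjoint (a k).B (a l).B) ∧
      ∀ k l, k ≠ l → ∀ x ∈ (a k).W ∩ (a l).W,
        ∃ Z, Z ⊆ (a k).W ∩ (a l).W ∧ IsPreconnected Z ∧ x ∈ Z ∧ (Z ∩ S).Nonempty := by
  have hB := bas
  obtain ⟨rk, N, hN, hlt, heq, hnest⟩ := rank hch hS hon hfam hx₀ hneg
    (fun k => (A12.circle_isConnected (hcirc k)).isPreconnected) hball
  obtain ⟨a, Y, ν, d, -, hν, hd, hdlt, ha, hcm, hdis, hdeq⟩ := h b rk N hch hon hcomm heq hlt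
  have hW : ∀ k, (b k).W = {x ∈ S | (b k).u x = 0} := fun k => (hB E).on_W (hon k).1
  have hWS : ∀ k, (b k).W ⊆ S := fun k x hx => by
    rw [hW] at hx
    exact hx.1
  have hW0 : ∀ k, ∀ x ∈ (b k).W, (b k).u x = 0 := fun k x hx => hx.2
  have hcont : ∀ k, ContinuousOn (b k).u S := fun k => (hon k).1.upl.1
  have hint : ∀ k l, rk k < rk l → ∀ x ∈ (a k).W ∩ (a l).W, ∃ y t, x = ν.toFun (y, t) ∧
      y ∈ (b l).W ∧ ((y ∈ (b k).W ∧ t ∈ Icc 0 (d k)) ∨
        (y ∈ {x ∈ S | 0 ≤ (b k).u x} ∧ t = d k)) := by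
    intro k l hkl x hx
    rw [(ha k).2.2.2, (ha l).2.2.2] at hx
    exact cup_inter ν (hWS k) (sep_subset _ _) (hWS l) (sep_subset _ _) (hd k).1 (hdlt k l hkl)
      (hd l).2 hx.1 hx.2
  have hD : ∀ k l, rk k < rk l →
      ((∀ x ∈ (b l).B, (b k).u x = 1) ∨ ∀ x ∈ (b l).B, (b k).u x = -1) →
      Disjoint (a k).B (a l).B := by
    intro k l hkl h1
    refine hdis k l hkl (h1.resolve_left fun h2 => ?_)
    obtain ⟨z, hz, h3⟩ := hnest k l hkl
    rw [h2 z hz.1] at h3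
    exact absurd h3 (by norm_num)
  have hR : ∀ k l, rk k < rk l → IsCircle (b l).W → ∀ x ∈ (a k).W ∩ (a l).W,
      ∃ Z, Z ⊆ (a k).W ∩ (a l).W ∧ IsPreconnected Z ∧ x ∈ Z ∧ (Z ∩ S).Nonempty := by
    intro k l hkl hJ x hx
    have hdl := hdlt k l hkl
    obtain ⟨y, t, h4, h5, h6⟩ := hint k l hkl x hx
    -- a connected set `A` at height `t` and a point `w` where one can go up
    obtain ⟨A, w, hAl, hAc, hyA, hwA, hwk, ht, hA⟩ : ∃ A w, A ⊆ (b l).W ∧ IsPreconnected A ∧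
        y ∈ A ∧ w ∈ A ∧ w ∈ (b k).W ∧ t ∈ Icc 0 (d k) ∧
        (A ⊆ (b k).W ∨ (A ⊆ {x ∈ S | 0 ≤ (b k).u x} ∧ t = d k)) := by
      rcases h6 with h6 | h6
      · exact ⟨{y}, y, singleton_subset_iff.2 h5, isPreconnected_singleton, rfl, rfl, h6.1, h6.2,
          Or.inl (singleton_subset_iff.2 h6.1)⟩
      · obtain ⟨z, hz, h3⟩ := hnest k l hkl
        obtain ⟨A, w, k1, k2, k3, k4, k5, k6⟩ := first_zero hJ (hWS l) (hcont k)
          (hball k).2.isClosed h5 hz h6.1.2 h3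
        refine ⟨A, w, k1, k2, k3, k4, ?_, ⟨(hd k).1.le.trans h6.2.ge, h6.2.le⟩,
          Or.inr ⟨fun v hv => ⟨hWS l (k1 hv), k6 v hv⟩, h6.2⟩⟩
        rw [hW]
        exact ⟨hWS l (k1 k4), k5⟩
    refine ⟨_, ?_, hook_pre ν hAc (hAl.trans (hWS l)) hwA ⟨ht.1, ht.2.trans (hd k).2.le⟩,
      ⟨(y, t), Or.inr ⟨hyA, rfl⟩, h4.symm⟩, w,
      ⟨(w, 0), Or.inl ⟨rfl, le_rfl, ht.1⟩, hν w (hWS k hwk)⟩, hWS k hwk⟩
    rw [(ha k).2.2.2, (ha l).2.2.2]
    refine subset_inter (image_mono ?_) (image_mono ?_)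
    · rintro z (hz | hz)
      · have h1 : z.1 = w := hz.1
        exact Or.inl ⟨h1 ▸ hwk, hz.2.1, hz.2.2.trans ht.2⟩
      · have h1 : z.2 = t := hz.2
        rcases hA with hA | hA
        · exact Or.inl ⟨hA hz.1, h1 ▸ ht⟩
        · exact Or.inr ⟨hA.1 hz.1, h1.trans hA.2⟩
    · rintro z (hz | hz)
      · have h1 : z.1 = w := hz.1
        exact Or.inl ⟨h1 ▸ hAl hwA, hz.2.1, hz.2.2.trans (ht.2.trans hdl.le)⟩
      · have h1 : z.2 = t := hz.2
        exact Or.inl ⟨hAl hz.1, h1 ▸ ⟨ht.1, ht.2.trans hdl.le⟩⟩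
  refine ⟨a, fun k => ⟨(ha k).1, (ha k).2.1, (ha k).2.2.1.weaken ?_, ?_⟩, hcm,
    fun k l hkl h1 h2 => ?_, fun k l hkl x hx => ?_⟩
  · rw [← NNReal.coe_le_coe]
    push_cast
    have h1 : (M₂ : ℝ) * L + N ≤ 33 * (M₂ * L + 1) := by linarith
    calc _ ≤ (c : ℝ) * M₁ * (33 * (M₂ * L + 1)) := by gcongr
      _ = _ := by ring
  · have h1 := (cup_ball (hball k).1 (hd k).1).image ν
      (cup_sub (hWS k) (sep_subset _ _) (hd k).1 (hd k).2)
    have e1 : ν.toFun '' ((b k).W ×ˢ ({0} : Set ℝ)) = (b k).W := by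
      ext x
      constructor
      · rintro ⟨⟨y, s⟩, hz, rfl⟩
        obtain rfl : s = 0 := hz.2
        rw [hν y (hWS k hz.1)]
        exact hz.1
      · intro hx
        exact ⟨(x, 0), ⟨hx, rfl⟩, hν x (hWS k hx)⟩
    rwa [e1, ← (ha k).2.2.2] at h1
  · rcases lt_trichotomy (rk k) (rk l) with h3 | h3 | h3
    · exact hD k l h3 h1
    · exact hdeq k l hkl h3
    · exact (hD l k h3 h2).symm
  · rcases lt_trichotomy (rk k) (rk l) with h4 | h4 | h4
    · exact hR k l h4 (hcirc l) x hx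
    · exact absurd hx.2.1 (disjoint_left.1 (hdeq k l hkl h4) hx.1.1)
    · rw [inter_comm] at hx ⊢
      exact hR l k h4 (hcirc k) x hx

end Ch

theorem cellh : ∃ c₀ : ℝ≥0, ∀ c, c₀ ≤ c → CELLH c := by
  obtain ⟨c₁, hc₁⟩ := Ch.colh bas map_thm lipg 2
  refine ⟨33 * c₁, fun c hc => ?_⟩
  have hB := bas
  have hG : GLUE := glue_of bas
  have hC : GCOMM := gcomm
  intro E _ _ _ π α κ _ _ _ C S M₁ M₂ L X home cir β fam x₀ hch hX hU hβ hJ hm hsat hcomm hfam hx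
  have hball : ConBall 3 C S := by
    obtain ⟨h1, φ, h2, -⟩ := hch
    exact ⟨h1, φ, h2⟩
  have hS : ConSphere 2 S := hball.conSphere
  have hSc : IsClosed S := hball.isCompact_bdry.isClosed
  choose g hon hlip hneg hW hP hN hgB hsg using
    fun k => glue_one hB hG X home cir β hS hSc hX hU hβ hm hsat hx k (hJ k)
  have hgc : ∀ k l, k ≠ l → Comm (g k) (g l) := by
    intro k l hkl
    refine hC (fun a : {a // cir a = k} => β a.1) (fun a : {a // cir a = l} => β a.1) (g k) (g l)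
      (fun a => (hβ a.1).1) (fun a => (hβ a.1).1) (hon k).ok (hgB k) (hgB l) (hsg k) (hsg l) ?_
    intro x h1 h2
    rw [hgB k] at h1
    rw [hgB l] at h2
    obtain ⟨a, ha⟩ := mem_iUnion.1 h1
    obtain ⟨a', ha'⟩ := mem_iUnion.1 h2
    have hne : cir a.1 ≠ cir a'.1 := by rw [a.2, a'.2]; exact hkl
    exact ⟨a, a', ha, ha', hcomm _ _ hne, hcomm _ _ hne.symm⟩
  have hcirc : ∀ k, IsCircle (g k).W := fun k => by rw [hW k]; exact hJ k
  have hdj : ∀ k l, (∀ a a', cir a = k → cir a' = l → Disjoint (β a).B (β a').B) →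
      Disjoint (g k).B (g l).B := fun k l hd => by
    rw [hgB k, hgB l, disjoint_iUnion_left]
    intro a
    rw [disjoint_iUnion_right]
    intro a'
    exact hd a.1 a'.1 a.2 a'.2
  obtain ⟨γ, h1, h2, h3, h5⟩ := Ch.cups (hc₁ c₁ le_rfl) g (fam := fam) (x₀ := x₀) (L := L) hch hSc
    (fun k => ⟨hon k, hlip k⟩) hgc
    (fun k l hkl hf => hdj k l fun a a' e e' => hfam a a' (by rwa [e, e']) (by rwa [e, e'])) hx
    (fun k => ((hon k).out x₀ hx fun h => by
      rw [hgB k] at h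
      obtain ⟨a, ha⟩ := mem_iUnion.1 h
      exact (hβ a.1).2.2.2.1 ha).resolve_left fun h => by
        have := hneg k
        rw [h] at this
        norm_num at this) hcirc (fun k => ⟨hP k, hN k⟩)
  have hhalf : ∀ k, (g k).half.B = ⋃ a, ⋃ (_ : cir a = k), (β a).half.B := by
    intro k
    ext x
    simp only [mem_iUnion, Band.half, mem_ofPred_eq]
    constructor
    · rintro ⟨hxB, hxu⟩
      rw [hgB k] at hxB
      obtain ⟨a, ha⟩ := mem_iUnion.1 hxB
      obtain ⟨ε, hε, hs⟩ := hsg k a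
      refine ⟨a.1, a.2, ha, ?_⟩
      rw [(hs x ha).1, abs_mul] at hxu
      rcases hε with h0 | h0 <;> simpa [h0] using hxu
    · rintro ⟨a, hak, ha, hxu⟩
      obtain ⟨ε, hε, hs⟩ := hsg k ⟨a, hak⟩
      refine ⟨by rw [hgB k]; exact mem_iUnion.2 ⟨⟨a, hak⟩, ha⟩, ?_⟩
      rw [(hs x ha).1, abs_mul]
      rcases hε with h0 | h0 <;> simpa [h0] using hxu
  have hconst : ∀ k l, Disjoint (g k).B (g l).B →
      (∀ x ∈ (g l).B, (g k).u x = 1) ∨ ∀ x ∈ (g l).B, (g k).u x = -1 := by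
    intro k l hd
    refine const_sign ((hB E).pre (hon l).ok (A12.circle_isConnected (hcirc l)).isPreconnected).1
      ((hon k).upl.1.mono (hon l).sub) ?_
    intro x hxl
    exact (hon k).out x ((hon l).sub hxl) (fun hxk => disjoint_left.1 hd hxk hxl)
  refine ⟨γ, fun k => ⟨(h1 k).1, ?_, ?_, (h1 k).2.2.1.weaken (by gcongr)⟩, ?_,
    fun k l hkl => ⟨h2 k l hkl, ?_, ?_⟩⟩
  · rw [← hW k]; exact (h1 k).2.2.2
  · rw [← hhalf k]; exact (h1 k).2.1.1
  · intro a x hxa _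
    obtain ⟨ε, hε, hs⟩ := (hB E).sgn_half (hsg (cir a) ⟨a, rfl⟩)
    have hxg : x ∈ (g (cir a)).half.B := by
      rw [hhalf]; exact mem_iUnion.2 ⟨a, mem_iUnion.2 ⟨rfl, hxa⟩⟩
    have hxS : x ∈ S := (hon (cir a)).sub hxg.1
    obtain ⟨-, e1, e2⟩ := (h1 (cir a)).2.1
    refine ⟨ε, hε, ?_, fun s hs' => ?_⟩
    · rw [e1 x hxS]; exact (hs x hxa).1
    · rw [e2 x hxg _ (sign_mem hε hs')]; exact (hs x hxa).2 s hs'
  · intro hd
    have hd' := hdj k l hd
    exact h3 k l hkl (hconst k l hd') (hconst l k hd'.symm)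
  · exact h5 k l hkl

end P073.Wh
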