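import Vale.Agent.P073Y.Wh.Sk
import Vale.Agent.P073Y.Fi.All

/-!
# The engine with the additional bound on the free three-cells
-/

open Set Metric Topology Filter
open scoped NNReal

namespace P073.Wh

open P073.Bd (Band I cl Match Sgn Comm Ext PwLip Chart Lev corner Gen1 bas)
open P073.Wb P073.Wb.CellsAux P073.Wf P073.Fi

section

variable {X : Base} {c₁ c₀ : ℝ≥0} {Fr : Frame X c₁} {D : X.ι → Set E3}
  {T : Trace Fr D} {β : T.α → Band E3}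

/-- the model in one cell -/
theorem one_cellH (h : CELLH c₀) (hA : Bd.ARCISO) (hS : State Fr D) (hF : Faces T β)
    (c : X.K.ι) (hc : X.K.dim c = 3) : ∃ γ : {k // T.cel k = c} → Band E3,
    (∀ k, (γ k).On (X.K.cell c) ∧ ConBall 2 (γ k).W (⋃ a ∈ T.s k.1, (β a).W) ∧
      (γ k).B ∩ X.K.bd c = ⋃ a ∈ T.s k.1, (β a).half.B ∧
      (∀ a ∈ T.s k.1, Match (β a).half (γ k)) ∧
      LipschitzOnWith (c₀ * X.M₁ c * (X.M₂ c * X.L₀ c + 1)) (γ k).u (X.K.cell c)) ∧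
    ∀ k l, k ≠ l → Comm (γ k) (γ l) ∧
      (X.fam (T.clab k.1) = X.fam (T.clab l.1) → Disjoint (γ k).B (γ l).B) ∧
      ∀ x ∈ (γ k).W ∩ (γ l).W,
        ∃ Z, Z ⊆ (γ k).W ∩ (γ l).W ∧ IsPreconnected Z ∧ x ∈ Z ∧ (Z ∩ X.K.bd c).Nonempty := by
  have := X.fin
  have := T.finα
  have := T.finκ
  choose cir₀ hc1 hc2 using fun a : {a // X.K.cell (T.face a) ⊆ X.K.cell c} =>
    T.cover a.1 c hc a.2
  obtain ⟨cir, hmem⟩ : ∃ cir : {a // X.K.cell (T.face a) ⊆ X.K.cell c} → {k // T.cel k = c},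
      ∀ a, a.1 ∈ T.s (cir a).1 := ⟨fun a => ⟨cir₀ a, hc1 a⟩, hc2⟩
  have hcel : ∀ k l : {k // T.cel k = c}, T.cel k.1 = T.cel l.1 := fun k l => k.2.trans l.2.symm
  have hcir : ∀ a k, a.1 ∈ T.s k.1 → cir a = k := fun a k ha =>
    Subtype.ext (same_circle hS T (hmem a) ha (hcel _ _) (T.arc a).left_mem (T.arc a).left_mem
      (bd_skel T a (end_mem T (Or.inl rfl)).2))
  have hin : ∀ (k : {k // T.cel k = c}), ∀ a ∈ T.s k.1, X.K.cell (T.face a) ⊆ X.K.cell c :=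
    fun k a ha => k.2 ▸ (T.mem_s k.1 a ha).2
  have hU : ∀ (f : T.α → Set E3) k, ⋃ a, ⋃ (_ : cir a = k), f a.1 = ⋃ a ∈ T.s k.1, f a := by
    intro f k
    ext x
    simp only [mem_iUnion]
    constructor
    · rintro ⟨a, rfl, hx⟩
      exact ⟨a.1, hmem a, hx⟩
    · rintro ⟨a, ha, hx⟩
      exact ⟨⟨a, hin k a ha⟩, hcir _ _ ha, hx⟩
  have hlab : ∀ a, T.lab a.1 = T.clab (cir a).1 := fun a => (T.mem_s _ _ (hmem a)).1
  have hbd : ∀ a : {a // X.K.cell (T.face a) ⊆ X.K.cell c}, X.K.cell (T.face a) ⊆ X.K.bd c :=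
    fun a => X.K.subset_bd_of_dim_lt a.2 (by rw [T.dim_face, hc]; norm_num)
  obtain ⟨x₀, hx₀, hv⟩ := exists_vertex X.K 3 c hc.le
  have hx₀' : x₀ ∈ X.K.bd c := by
    rw [← X.K.cell_inter_skel (k := 2) hc]
    exact ⟨hx₀, X.K.skel_mono (by norm_num) hv⟩
  have hch : Chart 3 (X.K.cell c) (X.K.bd c) (X.M₁ c) (X.M₂ c) := by
    have := X.chart c (by omega)
    rwa [hc] at this
  have hdis : ∀ a a', cir a ≠ cir a' → X.fam (T.clab (cir a).1) = X.fam (T.clab (cir a').1) →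
      Disjoint (β a.1).B (β a'.1).B := fun a a' hkl hfam => by
    have e : a.1 ≠ a'.1 := fun e' => hkl (congrArg cir (Subtype.ext e'))
    by_cases hf : T.face a.1 = T.face a'.1
    · refine hF.disj _ _ e hf ?_
      by_cases hl : T.lab a.1 = T.lab a'.1
      · exact T.disj _ _ e hf hl
      · exact (hS.disj _ _ hl (by rw [hlab, hlab]; exact hfam)).mono
          (fun x hx => (T.sub _ hx).1) fun x hx => (T.sub _ hx).1
    · exact disj_face hS hF (hmem a) (hmem a') (hcel _ _) (fun e' => hkl (Subtype.ext e')) hf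
  obtain ⟨γ, g1, g2, g3⟩ := h (L := X.L₀ c) (x₀ := x₀)
    (fun φ : {φ // X.K.dim φ = 2 ∧ X.K.cell φ ⊆ X.K.cell c} => X.K.cell φ.1)
    (fun a : {a // X.K.cell (T.face a) ⊆ X.K.cell c} => ⟨T.face a.1, T.dim_face a.1, a.2⟩) cir
    (fun a => β a.1) (fun k => X.fam (T.clab k.1)) hch (fun φ => ⟨X.K.isCompact_cell _, X.K.locCone_cell _⟩)
    (iUnion_faces X.K hc)
    (fun a => by
      refine ⟨(hF.ok a).1, (hF.ok a).2, (hF.arc a).isConnected.isPreconnected,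
        vertex_not_mem hS hF a hv,
        (hF.lip a).weaken (X.L_le c _ (hbd a) (by rw [T.dim_face, hc])), ?_⟩
      obtain ⟨x, hx, hx'⟩ := (hF.arc a).conBall.diff_nonempty
      refine ⟨x, hx, (X.K.sub_bd c).cell_mem_nhdsWithin
        ⟨(hF.ok a).2.1 hx.1, fun hb => hx' (W_bd hS hF hx hb)⟩ fun i hi _ => ?_⟩
      have := X.K.dim_lt hi
      rw [T.dim_face]
      omega)
    (fun k => by rw [hU (fun a => (β a).W) k]; exact circle hA hS hF k.1)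
    (fun a a' e => match_of hS hF (by rw [hlab, hlab, e]))
    (fun a φ x hx hxφ => by
      by_cases e : T.face a.1 = φ.1
      · exact ⟨a, rfl, Subtype.ext e, hx⟩
      · obtain ⟨a', y, f1, f2, f3, f4, f5⟩ := saturated hS hF φ.2.1 e hx hxφ
        have ha' : X.K.cell (T.face a') ⊆ X.K.cell c := f1 ▸ φ.2.2
        exact ⟨⟨a', ha'⟩, Subtype.ext (same_circle hS T (hmem ⟨a', ha'⟩) (hmem a) (hcel _ _)
          f4 f3 f5), Subtype.ext f1, f2⟩)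
    (fun a a' e => by
      by_cases hf : T.face a.1 = T.face a'.1
      · exact hF.comm _ _ (fun e' => e (congrArg cir (Subtype.ext e'))) hf
      · exact (bas E3).comm_of_disjoint (hF.ok a).1 (disj_face hS hF (hmem a) (hmem a')
          (hcel _ _) (fun e' => e (Subtype.ext e')) hf))
    hdis hx₀'
  refine ⟨γ, fun k => ⟨(g1 k).1, ?_, ?_, fun a ha => ?_, (g1 k).2.2.2⟩,
    fun k l hkl => ⟨(g3 k l hkl).1, fun hfam => (g3 k l hkl).2.1 ?_, (g3 k l hkl).2.2⟩⟩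
  · rw [← hU (fun a => (β a).W) k]; exact (g1 k).2.1
  · rw [← hU (fun a => (β a).half.B) k]; exact (g1 k).2.2.1
  · have := g2 ⟨a, hin k a ha⟩
    rwa [hcir _ _ ha] at this
  · rintro a a' rfl rfl
    exact hdis a a' hkl hfam

variable (S : Soft Fr c₀)

theorem cellH (h : CELLH c₀) (h' : Bd.CELLM c₀) (hA : Bd.ARCISO) (hS : State Fr D)
    (hF : Faces T β) (hN : S.NatF T β) (c : X.K.ι) (hc : X.K.dim c = 3) :
    ∃ γ : {k // T.cel k = c} → Band E3,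
    (∀ k, (γ k).On (X.K.cell c) ∧ ConBall 2 (γ k).W (⋃ a ∈ T.s k.1, (β a).W) ∧
      (γ k).B ∩ X.K.bd c = ⋃ a ∈ T.s k.1, (β a).half.B ∧
      (∀ a ∈ T.s k.1, Match (β a).half (γ k)) ∧
      LipschitzOnWith (X.L c) (γ k).u (X.K.cell c)) ∧
    (∀ k l, k ≠ l → Comm (γ k) (γ l) ∧
      (X.fam (T.clab k.1) = X.fam (T.clab l.1) → Disjoint (γ k).B (γ l).B) ∧
      ∀ x ∈ (γ k).W ∩ (γ l).W,
        ∃ Z, Z ⊆ (γ k).W ∩ (γ l).W ∧ IsPreconnected Z ∧ x ∈ Z ∧ (Z ∩ X.K.bd c).Nonempty) ∧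
    (c ∈ S.fro → (∀ k, ∃ j, (γ k).B ⊆ (S.ν j).half.B ∧ Match (γ k) (S.ν j).half) ∧
      ∀ k l, k ≠ l → Disjoint (γ k).B (γ l).B) ∧
    (c ∉ S.fro → ∀ k,
      LipschitzOnWith (c₀ * X.M₁ c * (X.M₂ c * X.L₀ c + 1)) (γ k).u (X.K.cell c)) := by
  by_cases hf : c ∈ S.fro
  · obtain ⟨γ, h1, h2, h3⟩ := cellS S h' hA hS hF hN c hc
    exact ⟨γ, h1, h2, h3, fun h4 => absurd hf h4⟩
  obtain ⟨γ, h1, h2⟩ := one_cellH h hA hS hF c hc
  refine ⟨γ, fun k => ⟨(h1 k).1, (h1 k).2.1, (h1 k).2.2.1, (h1 k).2.2.2.1,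
    (h1 k).2.2.2.2.weaken (le_trans ?_ (S.L_ge c (by omega) hf (X.thin c hc)))⟩, h2,
    fun h4 => absurd h4 hf, fun _ k => (h1 k).2.2.2.2⟩
  have := T.finκ
  have : Nonempty {k // T.cel k = c} := ⟨k⟩
  have h4 : (1 : ℝ≥0) ≤ ((Fr.P ∩ X.K.cell c).ncard : ℕ) :=
    Nat.one_le_cast.2 (Nat.card_pos.trans_le (card_le hS T c))
  gcongr

theorem cellsH (h : CELLH c₀) (h' : Bd.CELLM c₀) (hA : Bd.ARCISO) (hS : State Fr D)
    (hF : Faces T β) (hN : S.NatF T β) : ∃ γ, Cells T β γ ∧ S.NatC T γ ∧ ∀ k, T.cel k ∉ S.fro →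
      LipschitzOnWith (c₀ * X.M₁ (T.cel k) * (X.M₂ (T.cel k) * X.L₀ (T.cel k) + 1)) (γ k).u
        (X.K.cell (T.cel k)) := by
  choose γ g1 g2 g3 g4 using fun c hc => cellH S h h' hA hS hF hN c hc
  have key : ∀ c hc l (e : T.cel l = c),
      γ (T.cel l) (T.dim_cel l) ⟨l, rfl⟩ = γ c hc ⟨l, e⟩ := by
    intro c hc l e
    subst e
    rfl
  have pair : ∀ k l, k ≠ l → ∀ e : T.cel k = T.cel l,
      (⟨k, rfl⟩ : {j // T.cel j = T.cel k}) ≠ ⟨l, e.symm⟩ :=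
    fun k l hkl _ e' => hkl (congrArg Subtype.val e')
  refine ⟨fun k => γ (T.cel k) (T.dim_cel k) ⟨k, rfl⟩, ⟨fun k => (g1 _ _ _).1,
    fun k => (g1 _ _ _).2.1, fun k => (g1 _ _ _).2.2.1,
    fun k => (g1 (T.cel k) (T.dim_cel k) ⟨k, rfl⟩).2.2.2.1,
    fun k l hkl e => ?_, fun k l hkl e => ?_, fun k l hkl e => ?_, fun k => (g1 _ _ _).2.2.2.2⟩,
    ⟨fun k hk => (g3 _ _ hk).1 ⟨k, rfl⟩, fun k l hkl e hk => ?_⟩, fun k hk => g4 _ _ hk _⟩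
  · rw [key _ (T.dim_cel k) l e.symm]
    exact (g2 _ _ _ _ (pair k l hkl e)).1
  · rw [key _ (T.dim_cel k) l e.symm]
    exact (g2 _ _ _ _ (pair k l hkl e)).2.1
  · rw [key _ (T.dim_cel k) l e.symm]
    exact (g2 _ _ _ _ (pair k l hkl e)).2.2
  · show Disjoint (γ _ _ ⟨k, rfl⟩).B (γ _ _ ⟨l, rfl⟩).B
    rw [key _ (T.dim_cel k) l e.symm]
    exact (g3 _ _ hk).2 _ _ (pair k l hkl e)

/-- from the discs to the glued walls -/
theorem lip_wall {γ : T.κ → Band E3} {b : X.ι → Band E3} (hS : State Fr D) (F : Faces T β)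
    (C : Cells T β γ) (W : Walls T γ b) {c : X.K.ι} (hc : X.K.dim c = 3) {L : ℝ≥0}
    (h : ∀ k, T.cel k = c → LipschitzOnWith L (γ k).u (X.K.cell c)) (i : X.ι) :
    PwLip L (b i).u (X.K.cell c) := by
  have := T.finκ
  refine Sat.pw_parts (W.on i) (X.K.isClosed_cell c) (Sat.cell_sub c) γ
    (fun k => T.cel k = c ∧ T.clab k = i) ?_ fun x hx hx' => ?_
  · rintro k ⟨rfl, rfl⟩
    exact ⟨(C.on k).ok, Sat.part_cup W k, (h k rfl).mono (C.on k).sub⟩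
  · obtain ⟨k, h1, h2, h3⟩ := Sat.sat_cell hS F C W hx hc hx'
    exact ⟨k, ⟨h1, h2⟩, h3⟩

end

theorem w2h_of' {c₀ c : ℝ≥0} (hFa : FACESS c₀ c) (h : CELLH c₀) (h' : Bd.CELLM c₀) :
    W2H c₀ c := by
  intro X lo hi g t lam fro w z Λ L' ζ 𝓢 χ hR hZ hζ hζ' hWi hSq hBig
  obtain ⟨Fr, S, hFl, hS, hInv, e1, e2, e3, e4, e5⟩ := initF g t hR hZ
  have hW1 : ∀ e, X.K.dim e = 1 → e ∉ fro → ∀ p ∈ Fr.P ∩ X.K.cell e,
      LipschitzOnWith (Λ e) (Fr.z p).half.half.u (Fr.z p).half.half.B := by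
    intro e he hf p hp
    rw [e5 e he hf p hp]
    refine hWi e he hf p ⟨?_, hp.2⟩
    have h1 := hp.1
    rw [e4] at h1
    exact h1.1
  have hW2 : Wide X S.fro Fr.P (fun _ => Fr.z) Λ := fun e he hf => hW1 e he (e1 ▸ hf)
  have hSq' : ∀ φ (h : φ ∈ 𝓢), Sqr X S.fro Fr.P Λ c ζ φ (χ φ h) := by
    rw [e1, e4]
    exact hSq
  obtain ⟨D', b, -, -, -, hb, h0, -, hle, hQ, hatt⟩ := engineJ (Fr := Fr) S.Inv
    (fun _ b => (S.Nat b ∧ Pat X fun i => (b i).W) ∧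
      (∀ e, X.K.dim e = 1 → e ∉ fro → ShpE X b e (Λ e)) ∧
      (∀ φ (h : φ ∈ 𝓢), ShpW X b φ (χ φ h) (Λ φ) ζ c) ∧
      ∀ c, X.K.dim c = 3 → c ∉ fro → ∀ i, PwLip (4 * L' c) (b i).u (X.K.cell c))
    (fun D hD hI => by
      obtain ⟨T⟩ := Wb.trace hD
      obtain ⟨β, hβ, n1, n3⟩ := hFa S 𝓢 χ hζ hζ' hW2 hSq' hD hI T
      obtain ⟨γ, hγ, n2, n4⟩ := cellsH S h h' Bd.arciso hD hβ n1
      obtain ⟨b, hb⟩ := Wb.walls hD T β γ hβ hγ
      obtain ⟨h1, h2⟩ := Wb.normle hD T β γ b hβ hγ hb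
      have hm := Wb.model_thm hD T β γ b hβ hγ hb
      obtain ⟨s1, s2⟩ := sumf T β γ b hD hβ hγ hb
      refine ⟨b, hm, h1, ⟨⟨natq S hD hI T β γ b hβ hγ hb hm n1 n2, patF hD T β γ b hβ hγ hb⟩,
        fun e he hf => s2 e (Λ e) he (hW1 e he hf),
        fun φ h => s1 φ (χ φ h) (Λ φ) ζ c (hSq φ h).dim (n3 φ h),
        fun c hc hf => lip_wall hD hβ hγ hb hc ?_⟩, h2⟩
      rintro k rfl
      exact (n4 k (e1 ▸ hf)).weaken ((hBig _ hc hf).trans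
        (le_mul_of_one_le_left zero_le (by norm_num))))
    (fun _ _ _ hQ hb hs => swapF S hb hQ.1.1 hs) _ hS hInv
  obtain ⟨G, hG⟩ := finF g t hFl hS hb h0 hle hatt
  refine ⟨G, b, hG, ?_, fun i => e3 i ▸ hb.ext i, fun i c hc x hx => ?_,
    fun i j hij c hc => hQ.1.1.disj i j hij c (e1 ▸ hc), hQ.2.1, hQ.2.2.1,
    fun c hc hf s hs => (Bd.lipg (E := E3)).2 s b (X.K.isClosed_cell c)
      (fun i _ => ⟨(hb.on i).upl.1.mono (X.cell_subset c), (hb.on i).ok.cpt.isClosed,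
        hQ.2.2.2 c hc hf i, fun x hx hxB => (hb.on i).out x (X.cell_subset c hx) hxB⟩)
      fun i hi j hj hij => hb.disj i j hij (hs i hi j hj)⟩
  · rw [← funext hG.wall]
    exact hQ.1.2
  · obtain ⟨j, h⟩ := hQ.1.1.mat i c (e1 ▸ hc) x hx
    exact ⟨j, e2 j ▸ h⟩

theorem w2h_of (h : ∃ c₀ : ℝ≥0, ∀ c, c₀ ≤ c → CELLH c) :
    ∃ c₀ : ℝ≥0, ∀ c, c₀ ≤ c → W2H c 120000 := by
  obtain ⟨c₀, h⟩ := h
  obtain ⟨c₁, h'⟩ := Bd.models
  exact ⟨max c₀ c₁, fun c hc => w2h_of' (facess_of (h' c (le_of_max_le_right hc)).1 facems)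
    (h c (le_of_max_le_left hc)) (h' c (le_of_max_le_right hc)).2⟩

end P073.Wh
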