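import Vale.Agent.P073Y.Wh.Sk0
import Vale.Agent.P073Y.Fi.Sk2

/-!
# The engine with constants on the three-cells which do not depend on the number of points
-/

open Set Metric Topology Filter MeasureTheory
open scoped NNReal ENNReal

namespace P073.Wh

open P073.Bd (Band I cl Match Sgn Comm Ext PwLip)
open P073.Wb P073.Wf P073.Fi

/-- the constants `L'` on the free three-cells -/
def Big (X : Base) (fro : Set X.K.ι) (c₀ : ℝ≥0) (L' : X.K.ι → ℝ≥0) : Prop :=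
  ∀ c, X.K.dim c = 3 → c ∉ fro → c₀ * X.M₁ c * (X.M₂ c * X.L₀ c + 1) ≤ L' c

/-- the staircases are Lipschitz with constant `4 L'` on the free three-cells -/
def Lip3 (X : Base) (fro : Set X.K.ι) (L' : X.K.ι → ℝ≥0) (u : X.ι → E3 → ℝ) : Prop :=
  ∀ c, X.K.dim c = 3 → c ∉ fro → ∀ s : Finset X.ι, (∀ i ∈ s, ∀ j ∈ s, X.fam i = X.fam j) →
    PwLip (4 * L' c) (fun x => ∑ i ∈ s, u i x) (X.K.cell c)

/-- the engine `W2S` with the additional bound -/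
def W2H (c₀ c : ℝ≥0) : Prop := ∀ (X : Base) {lo hi : E3} (g : ConHomeo X.Ω (Icc lo hi))
  (t : X.ι → ℝ) (lam : ℝ≥0) (fro : Set X.K.ι) (w : X.ι → Band E3) (z : X.K.ι → E3 → Band E3)
  (Λ L' : X.K.ι → ℝ≥0) (ζ : ℝ) (𝓢 : Set X.K.ι) (χ : ∀ φ ∈ 𝓢, ConHomeo (X.K.cell φ) Q),
  RawF X c₀ g t lam fro w → ZonesF X fro (⋃ i, lvl g t i) z → 0 < ζ → ζ ≤ 1 / 100 →
  Wide X fro (⋃ i, lvl g t i) z Λ →
  (∀ φ (h : φ ∈ 𝓢), Sqr X fro ((⋃ i, lvl g t i) ∩ X.K.skel 1) Λ c ζ φ (χ φ h)) →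
  Big X fro c₀ L' →
  ∃ (G : ConHomeo X.Ω (Icc lo hi)) (b : X.ι → Band E3), Wf.Out X g G t lam b ∧ Pat X (lvl G t) ∧
    (∀ i, Ext (b i) ((w i).cut X.U).half.half X.U) ∧
    (∀ i, ∀ c ∈ fro, ∀ x ∈ (b i).B ∩ X.K.cell c,
      ∃ j, x ∈ (w j).half.half.B ∧ MAt (w j).half.half (b i) x) ∧
    (∀ i j, i ≠ j → ∀ c ∈ fro, ¬ X.K.cell c ⊆ X.U →
      Disjoint ((b i).B ∩ (b j).B) (X.K.cell c)) ∧
    (∀ e, X.K.dim e = 1 → e ∉ fro → ShpE X b e (Λ e)) ∧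
    (∀ φ (h : φ ∈ 𝓢), ShpW X b φ (χ φ h) (Λ φ) ζ c) ∧
    Lip3 X fro L' fun i => (b i).u

/-- the segment from `y` to a side of the box in the direction `m` -/
def ray (y : E3) (m : Fin 3) (v : ℝ) : Set E3 := segment ℝ y (Function.update y m v)

/-- along a segment to the boundary which sees small cells and one family only, the new walls are
near the old ones -/
def Pin (X : Base) {lo hi : E3} (g G : ConHomeo X.Ω (Icc lo hi)) (t : X.ι → ℝ) (lam : ℝ) : Prop :=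
  ∀ (o : ℝ) (x : E3) (m : Fin 3) (v : ℝ) (fm : Bool), 0 ≤ o → x ∈ X.Ω →
    (v = lo m ∨ v = hi m) → m ≠ (if fm then 0 else 1) →
    (∀ c, (convexHull ℝ (g.toFun '' X.K.cell c) ∩
      cthickening (3 * o) (ray (g.toFun x) m v)).Nonempty →
      ∀ u ∈ X.K.cell c, ∀ u' ∈ X.K.cell c, dist (g.toFun u) (g.toFun u') ≤ o) →
    (∀ j, X.fam j ≠ fm → ∀ y ∈ cthickening (4 * o) (ray (g.toFun x) m v),
      lam < |t j - y (X.co j)|) →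
    ∀ i, (t i + 3 * o + lam ≤ g.toFun x (X.co i) → t i + lam ≤ G.toFun x (X.co i)) ∧
      (g.toFun x (X.co i) ≤ t i - 3 * o - lam → G.toFun x (X.co i) ≤ t i - lam)

/-- cells which miss the old walls miss the new bands -/
def Miss (X : Base) {lo hi : E3} (g G : ConHomeo X.Ω (Icc lo hi)) (t : X.ι → ℝ) (lam : ℝ) :
    Prop := ∀ c, (∀ j, Disjoint (lvl g t j) (X.K.cell c)) →
  ∀ i, ∀ x ∈ X.K.cell c, lam < |G.toFun x (X.co i) - t i|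

/-- from every point of the cell there is a segment to the boundary which sees one family only -/
def Lone (X : Base) {lo hi : E3} (g : ConHomeo X.Ω (Icc lo hi)) (t : X.ι → ℝ) (c : X.K.ι) :
    Prop := ∀ x ∈ X.K.cell c, ∃ (m : Fin 3) (v : ℝ) (fm : Bool), (v = lo m ∨ v = hi m) ∧
  m ≠ (if fm then 0 else 1) ∧ ∀ c', (convexHull ℝ (g.toFun '' X.K.cell c') ∩
    ray (g.toFun x) m v).Nonempty → ∀ j, X.fam j ≠ fm → Disjoint (lvl g t j) (X.K.cell c')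

/-- on such cells the labels are the original ones -/
def Orig (X : Base) {lo hi : E3} (g G : ConHomeo X.Ω (Icc lo hi)) (t : X.ι → ℝ) (lam : ℝ) :
    Prop := ∀ c, Lone X g t c → ∀ i, Disjoint (lvl g t i) (X.K.cell c) →
  ∀ x ∈ X.K.cell c, lam < |G.toFun x (X.co i) - t i|

/-- these facts follow from the output of the engine -/
def PIN : Prop := ∀ (X : Base) {lo hi : E3} (g g' G : ConHomeo X.Ω (Icc lo hi)) (t : X.ι → ℝ)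
  (lam : ℝ) (b : X.ι → Band E3), 0 < lam →
  (∀ i j, i ≠ j → X.fam i = X.fam j → t i ≠ t j) →
  X.bd = {x ∈ X.Ω | g.toFun x ∈ frontier (Icc lo hi)} → X.K.carrier = X.Ω →
  EqOn g'.toFun g.toFun X.bd → (∀ c, g'.toFun '' X.K.cell c = g.toFun '' X.K.cell c) →
  Wf.Out X g' G t lam b → Pin X g G t lam ∧ Miss X g G t lam ∧ Orig X g G t lam

/-- spreading the points and running the engine -/
def RUNH (c₀ c : ℝ≥0) : Prop := ∀ (X : Base) {lo hi : E3} (g : ConHomeo X.Ω (Icc lo hi))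
  (t : X.ι → ℝ) (lam : ℝ≥0) (fro : Set X.K.ι) (w : X.ι → Band E3) (Λ L' : X.K.ι → ℝ≥0)
  (ζ₁ ζ₂ : ℝ) (𝓢 : Set X.K.ι) (χ : ∀ φ ∈ 𝓢, ConHomeo (X.K.cell φ) Q),
  RawF X c₀ g t lam fro w → 0 < ζ₁ → ζ₁ ≤ 1 → 0 < ζ₂ → ζ₂ ≤ 1 / 100 →
  SegS X fro (⋃ i, lvl g t i) Λ ζ₁ →
  (∀ φ (h : φ ∈ 𝓢), Sqr X fro ((⋃ i, lvl g t i) ∩ X.K.skel 1) Λ c ζ₂ φ (χ φ h)) →
  Big X fro c₀ L' → X.K.carrier = X.Ω →
  ∃ (G : ConHomeo X.Ω (Icc lo hi)) (u : X.ι → E3 → ℝ), EqOn G.toFun g.toFun X.bd ∧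
    (∀ i, ∀ x ∈ X.Ω, u i x = cl ((G.toFun x (X.co i) - t i) / lam)) ∧
    (∀ c (s : Finset X.ι), (∀ i ∈ s, ∀ j ∈ s, X.fam i = X.fam j) →
      PwLip (4 * X.L c) (fun x => ∑ i ∈ s, u i x) (X.K.cell c)) ∧
    (∀ o : ℝ, 0 ≤ o →
      (∀ c, ∀ x ∈ X.K.cell c, ∀ y ∈ X.K.cell c, dist (g.toFun x) (g.toFun y) ≤ o) →
      ∀ x ∈ X.Ω, ∃ y ∈ Icc lo hi, dist y (g.toFun x) ≤ o ∧ ∀ (i : X.ι) (κ : ℝ),
        (∀ j, X.fam j = X.fam i → 2 * o + lam < |t j - κ|) →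
        (t i < κ → κ ≤ y (X.co i) → t i + lam ≤ G.toFun x (X.co i)) ∧
        (κ < t i → y (X.co i) ≤ κ → G.toFun x (X.co i) ≤ t i - lam)) ∧
    (∀ e, X.K.dim e = 1 → e ∉ fro →
      (∀ (s : Finset X.ι) (ε : X.ι → ℝ), (∀ i, ε i = 1 ∨ ε i = -1) →
        PwLip (Λ e) (fun x => ∑ i ∈ s, ε i * u i x) (X.K.cell e)) ∧
      ∀ x y, X.K.cell e = segment ℝ x y → X.K.bd e = {x, y} → ∀ s : Finset X.ι,
        ∑ i ∈ s, |u i y - u i x| ≤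
          2 * (((⋃ i, lvl g t i) ∩ X.K.skel 1 ∩ X.K.cell e).ncard : ℕ)) ∧
    (∀ φ (h : φ ∈ 𝓢), ∀ [Fintype X.ι],
      Shp (stair (co₂ X) (fun _ => 1) fun i v => u i ((χ φ h).invFun v)) (Λ φ) ζ₂ c) ∧
    Lip3 X fro L' u ∧ Pin X g G t lam ∧ Miss X g G t lam ∧ Orig X g G t lam ∧
    ∀ i, ∀ x ∈ X.U, u i x = cl ((g.toFun x (X.co i) - t i) / lam)

end P073.Wh
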