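import Vale.Agent.P073Y.Wh.Sk0
import Vale.Agent.P073Y.Bd.Collar
import Vale.Agent.P073Y.Bd.Collar0

/-!
# The cup construction, with equal depths for bands with disjoint positive sides
-/

open Set Metric Topology Filter
open scoped NNReal

namespace P073.Wh.Ch

open P073.Bd P073.Bd.Collar

/-- the cup construction in collar coordinates -/
theorem col0 (hB : BAS) {E : Type} [NormedAddCommGroup E] [NormedSpace ℝ E]
    [FiniteDimensional ℝ E] {κ : Type} {S : Set E} (b : κ → Band E) (d : κ → ℝ) {w : ℝ}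
    (hS : IsCompact S) (hc : LocCone S) (hw : 0 < w) (hb : ∀ k, (b k).On S)
    (hcm : ∀ k l, k ≠ l → Comm (b k) (b l)) (hd : ∀ k, 2 * w ≤ d k ∧ d k + 2 * w ≤ 1)
    (hdd : ∀ k l, k ≠ l → 4 * w ≤ |d k - d l| ∨ ∀ x ∈ S, (b k).u x = -1 ∨ (b l).u x = -1) :
    ∃ a : κ → Band (E × ℝ), (∀ k, (a k).On (S ×ˢ Icc 0 1) ∧
      (∀ q, (a k).u q = cl (min (2 * (b k).u q.1) ((d k - q.2) / w))) ∧
      (∀ q, q ∈ (a k).B ↔ q ∈ S ×ˢ Icc (0:ℝ) 1 ∧ |min (2 * (b k).u q.1) ((d k - q.2) / w)| ≤ 1) ∧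
      ∀ x ∈ (b k).half.B, ∀ s ∈ I, (a k).M ((x, 0), s) = ((b k).half.M (x, s), 0)) ∧
      ∀ k l, k ≠ l → Comm (a k) (a l) := by
  refine ⟨fun k => C0.cup (b k) S (d k) w, fun k => ⟨C0.cup_on hS hc (hb k) hw (hd k),
    fun q => rfl, fun q => Iff.rfl, fun x hx s hs => ?_⟩, fun k l hkl => ?_⟩
  · have h2 : 2 ≤ C0.cr (d k) w (x, (0:ℝ)) := C0.cr_ge hw (by linarith [(hd k).1])
    obtain ⟨h3, h4⟩ := abs_le.1 hx.2
    have ha : C0.ca (b k) (x, (0:ℝ)) = 2 * (b k).u x := rfl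
    have hq : (x, (0:ℝ)) ∈ (C0.cup (b k) S (d k) w).B := by
      refine ⟨⟨(hb k).sub hx.1, le_rfl, zero_le_one⟩, ?_⟩
      rw [min_eq_left (by linarith), ha, abs_le]
      constructor <;> linarith
    rw [C0.M_high hw hq h2 hs, C0.mt_in hx.1]
    rfl
  · rcases hdd k l hkl with h | h
    · exact C0.cup_comm (hB E) (hb k) (hb l) (hcm k l hkl) (hcm l k hkl.symm) hw (hd k) (hd l) h
    · refine (hB (E × ℝ)).comm_of_disjoint (C0.cup_on hS hc (hb k) hw (hd k)).ok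
        (disjoint_left.2 fun q hq hq' => ?_)
      have h1 : -1 ≤ 2 * (b k).u q.1 := (le_min_iff.1 (abs_le.1 hq.2).1).1
      have h2 : -1 ≤ 2 * (b l).u q.1 := (le_min_iff.1 (abs_le.1 hq'.2).1).1
      rcases h q.1 hq.1.1 with e | e <;> linarith

/-- the cup construction in a ball with a chart -/
def COLH (n : ℕ) (c₀ : ℝ≥0) : Prop := ∀ {E : Type} [NormedAddCommGroup E] [NormedSpace ℝ E]
  [FiniteDimensional ℝ E] {κ : Type} {C S : Set E} {M₁ M₂ L : ℝ≥0} (b : κ → Band E)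
  (rk : κ → ℕ) (N : ℕ), Chart (n + 1) C S M₁ M₂ → (∀ k, (b k).On S ∧ PwLip L (b k).u S) →
  (∀ k l, k ≠ l → Comm (b k) (b l)) →
  (∀ k l, k ≠ l → rk k = rk l → ∀ x ∈ S, (b k).u x = -1 ∨ (b l).u x = -1) → (∀ k, rk k < N) →
  ∃ (a : κ → Band E) (Y : Set E) (ν : ConHomeo (S ×ˢ Icc (0:ℝ) 1) Y) (d : κ → ℝ),
    Y ⊆ C ∧ (∀ x ∈ S, ν.toFun (x, 0) = x) ∧ (∀ k, 0 < d k ∧ d k < 1) ∧
    (∀ k l, rk k < rk l → d k < d l) ∧
    (∀ k, (a k).On C ∧ Ext (a k) (b k).half S ∧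
      LipschitzOnWith (c₀ * M₁ * (M₂ * L + N)) (a k).u C ∧
      (a k).W = ν.toFun '' ((b k).W ×ˢ Icc 0 (d k) ∪ {x ∈ S | 0 ≤ (b k).u x} ×ˢ {d k})) ∧
    (∀ k l, k ≠ l → Comm (a k) (a l)) ∧
    (∀ k l, rk k < rk l → (∀ x ∈ (b l).B, (b k).u x = -1) → Disjoint (a k).B (a l).B) ∧
    ∀ k l, k ≠ l → rk k = rk l → Disjoint (a k).B (a l).B

theorem colh (hB : BAS) (hM : MAP) (hL : LIPG) (n : ℕ) :
    ∃ c₀, ∀ c, c₀ ≤ c → COLH n c := by
  obtain ⟨K, hK⟩ := exists_nu (n + 1)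
  refine ⟨2 * K + 16, fun c hc => ?_⟩
  intro E _ _ _ κ C S M₁ M₂ L b rk N hch hb hcomm hrk hN
  obtain ⟨hSC, φ, hφ, hM₁, hM₂⟩ := hch
  have hball : ConBall (n + 1) C S := ⟨hSC, φ, hφ⟩
  obtain ⟨ν, p, ν0, hp, hpS, hν⟩ := hK φ hSC hφ hM₂
  obtain ⟨w, hw, hwN⟩ : ∃ w : ℝ, 0 < w ∧ w * (4 * (N + 1)) = 1 :=
    ⟨1 / (4 * (N + 1)), by positivity, by field_simp⟩
  let d : κ → ℝ := fun k => (4 * rk k + 2) * w
  have hd : ∀ k, 2 * w ≤ d k ∧ d k + 2 * w ≤ 1 := fun k => by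
    have h1 : (rk k : ℝ) ≤ N := by exact_mod_cast (hN k).le
    have h2 : (0 : ℝ) ≤ rk k := Nat.cast_nonneg _
    have h3 := mul_le_mul_of_nonneg_left h1 hw.le
    have h4 := mul_nonneg hw.le h2
    constructor <;> simp only [d] <;> nlinarith
  have hlt : ∀ k l, rk k < rk l → d k + 4 * w ≤ d l := fun k l h => by
    have h1 : (rk k : ℝ) + 1 ≤ rk l := by exact_mod_cast h
    have h3 := mul_le_mul_of_nonneg_left h1 hw.le
    simp only [d]
    nlinarith
  obtain ⟨a, ha, hac⟩ := col0 hB b d hball.isCompact_bdry hball.locCone_bdry hw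
    (fun k => (hb k).1) hcomm hd fun k l hkl => by
      rcases lt_trichotomy (rk k) (rk l) with h | h | h
      · exact Or.inl (le_abs.2 (Or.inr (by linarith [hlt k l h])))
      · exact Or.inr (hrk k l hkl h)
      · exact Or.inl (le_abs.2 (Or.inl (by linarith [hlt l k h])))
  obtain ⟨m1, m2, m3⟩ := hM ν
  have hY : φ.invFun '' Sh (n + 1) ⊆ C := by
    rintro _ ⟨z, hz, rfl⟩
    exact φ.mapsTo_inv (Sh_sub _ hz)
  let U : κ → E → ℝ := fun k y =>
    cl (min (2 * (b k).u (p (φ.toFun y))) ((d k - 2 * (1 - ‖φ.toFun y‖)) / w))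
  have hU : ∀ k, EqOn (U k) ((a k).map ν).u (φ.invFun '' Sh (n + 1)) := fun k y hy => by
    change _ = (a k).u (ν.invFun y)
    rw [hν y hy, (ha k).2.1]
  have hU' : ∀ k y, ‖φ.toFun y‖ ≤ 1 / 2 → U k y = -1 := fun k y hy => by
    refine cl_low ((min_le_right _ _).trans ?_)
    rw [div_le_iff₀ hw]
    linarith [(hd k).2]
  have hon : ∀ k, ((a k).map ν).On (φ.invFun '' Sh (n + 1)) := fun k => m2 (ha k).1
  have hUB : ∀ k, EqOn (U k) ((a k).map ν).u ((a k).map ν).B := fun k => (hU k).mono (hon k).sub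
  have hout : ∀ y ∈ C, y ∉ φ.invFun '' Sh (n + 1) → ‖φ.toFun y‖ ≤ 1 / 2 := fun y hy hy' => by
    by_contra h
    exact hy' ⟨φ.toFun y, ⟨(not_le.1 h).le, mem_closedBall_zero_iff.1 (φ.mapsTo hy)⟩,
      φ.left_inv hy⟩
  have hS0 : ∀ x ∈ S, (x, (0 : ℝ)) ∈ S ×ˢ Icc (0 : ℝ) 1 := fun x hx => ⟨hx, le_rfl, zero_le_one⟩
  have hi0 : ∀ x ∈ S, ν.invFun x = (x, 0) := fun x hx => by
    rw [← ν.left_inv (hS0 x hx), ν0 x hx]
  have hdw : ∀ k, 2 ≤ (d k - 0) / w := fun k => by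
    rw [le_div_iff₀ hw]
    linarith [(hd k).1]
  have hmem : ∀ k, ∀ x ∈ S, |2 * (b k).u x| ≤ 1 → x ∈ (b k).B := fun k x hx h => by
    by_contra hn
    rcases (hb k).1.out x hx hn with h1 | h1 <;> rw [h1] at h <;> norm_num at h
  refine ⟨fun k => setU ((a k).map ν) (U k), _, ν, d, hY, ν0,
    fun k => ⟨by linarith [(hd k).1], by linarith [(hd k).2]⟩,
    fun k l h => by linarith [hlt k l h], fun k => ⟨?_, ⟨?_, ?_, ?_⟩, ?_, ?_⟩,
    fun k l hkl => setU_comm (m3 (ha k).1.ok (ha l).1.ok (ha k).1.sub (ha l).1.sub (hac k l hkl))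
      (hUB l), fun k l hkl h => ?_, fun k l hkl h => ?_⟩
  · have hsub : closedBall (0 : Fin (n + 1) → ℝ) (1 / 2) ⊆ closedBall 0 1 :=
      closedBall_subset_closedBall (by norm_num)
    have c1 : IsClosed (φ.invFun '' Sh (n + 1)) :=
      ((Sh_cpt _).image_of_continuousOn (φ.cont_inv.mono (Sh_sub _))).isClosed
    have c2 : IsClosed (φ.invFun '' closedBall 0 (1 / 2)) :=
      ((isCompact_closedBall _ _).image_of_continuousOn (φ.cont_inv.mono hsub)).isClosed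
    have e : C = φ.invFun '' Sh (n + 1) ∪ φ.invFun '' closedBall 0 (1 / 2) := by
      refine Subset.antisymm (fun y hy => ?_) (union_subset hY ?_)
      · by_cases hy' : y ∈ φ.invFun '' Sh (n + 1)
        · exact Or.inl hy'
        · exact Or.inr ⟨_, mem_closedBall_zero_iff.2 (hout y hy hy'), φ.left_inv hy⟩
      · rintro _ ⟨z, hz, rfl⟩
        exact φ.mapsTo_inv (hsub hz)
    have e2 : EqOn (U k) (fun _ => -1) (φ.invFun '' closedBall 0 (1 / 2)) := by
      rintro _ ⟨z, hz, rfl⟩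
      refine hU' k _ ?_
      rw [φ.right_inv (hsub hz)]
      exact mem_closedBall_zero_iff.1 hz
    refine ⟨setU_ok (hon k).ok (hUB k), (hon k).sub.trans hY, ?_, fun y hy hy' => ?_⟩
    · change PLOn (U k) C
      rw [e]
      refine ⟨((hon k).upl.1.congr (hU k)).union_of_isClosed (continuousOn_const.congr e2) c1 c2,
        ((hon k).upl.2.congr (hU k)).union ((conicalOn_const _ (φ.symm.conicalSet_image
          (Convex.conicalSet (convex_closedBall _ _)) hsub)).congr e2) ?_ ?_⟩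
      · intro x _ hx
        rwa [c1.closure_eq] at hx
      · intro x _ hx
        rwa [c2.closure_eq] at hx
    · change U k y = 1 ∨ U k y = -1
      by_cases h : y ∈ φ.invFun '' Sh (n + 1)
      · rw [hU k h]
        exact (hon k).out y h hy'
      · exact Or.inr (hU' k y (hout y hy h))
  · ext x
    constructor
    · rintro ⟨⟨q, hq, rfl⟩, hx⟩
      have h1 := hi0 _ hx
      rw [ν.left_inv ((ha k).1.sub hq)] at h1
      have h2 := (((ha k).2.2.1 q).1 hq).2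
      generalize ν.toFun q = x at *
      subst h1
      have h3 : |2 * (b k).u x| ≤ 1 := by
        rcases min_choice (2 * (b k).u x) ((d k - 0) / w) with h | h
        · rwa [h] at h2
        · rw [h] at h2
          linarith [hdw k, (abs_le.1 h2).2]
      refine ⟨hmem k x hx h3, ?_⟩
      rw [abs_mul, abs_two] at h3
      linarith
    · rintro ⟨hx, hx'⟩
      have hxS := (hb k).1.sub hx
      refine ⟨⟨(x, 0), ((ha k).2.2.1 _).2 ⟨hS0 x hxS, ?_⟩, ν0 x hxS⟩, hxS⟩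
      obtain ⟨h1, h2⟩ := abs_le.1 hx'
      rw [min_eq_left (by linarith [hdw k]), abs_le]
      constructor <;> linarith
  · intro x hx
    change U k x = cl (2 * (b k).u x)
    rw [hU k (ν0 x hx ▸ ν.mapsTo (hS0 x hx))]
    change (a k).u (ν.invFun x) = _
    rw [hi0 x hx, (ha k).2.1, cl_min (by linarith [hdw k])]
  · intro x hx s hs
    change ν.toFun ((a k).M (ν.invFun x, s)) = _
    rw [hi0 x ((hb k).1.sub hx.1), (ha k).2.2.2 x hx s hs]
    refine ν0 _ ((hb k).1.sub ((hb k).1.ok.Mmem x hx.1 _ ?_).1)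
    constructor <;> linarith [hs.1, hs.2]
  · have hN1 : (1 : ℝ) ≤ N := by exact_mod_cast (Nat.zero_le _).trans_lt (hN k)
    have hc' : 2 * (K : ℝ) + 16 ≤ c := by exact_mod_cast hc
    have k0 := K.coe_nonneg
    have l0 := mul_nonneg M₂.coe_nonneg L.coe_nonneg
    have h1 := lip_cube hL (Λ := c * (M₂ * L + N)) hw (hd k).2 hp hpS (hb k).2 (by
      rw [← NNReal.coe_le_coe]
      push_cast
      nlinarith [mul_le_mul_of_nonneg_right hc' l0, mul_nonneg c.coe_nonneg (zero_le_one.trans hN1)])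
      (by
        push_cast
        have e : 2 / w = 8 * (N + 1) := by
          rw [div_eq_iff hw.ne']
          linarith
        rw [e]
        nlinarith [mul_nonneg c.coe_nonneg l0, mul_le_mul_of_nonneg_right hc' (zero_le_one.trans hN1),
          mul_nonneg k0 (zero_le_one.trans hN1)])
    have h2 := h1.comp hM₁ φ.mapsTo
    rw [mul_right_comm]
    exact h2
  · rw [setU_W (hUB k), (m1 (ha k).1.ok (ha k).1.sub).2.1]
    congr 1
    ext ⟨x, r⟩
    change ((x, r) ∈ (a k).B ∧ (a k).u (x, r) = 0) ↔ _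
    rw [(ha k).2.2.1, (ha k).2.1, cl_eq_zero, (hB E).on_W (hb k).1]
    simp only [mem_prod, mem_Icc, mem_union, mem_ofPred_eq, mem_singleton_iff]
    constructor
    · rintro ⟨⟨⟨hx, hr, -⟩, -⟩, h⟩
      have h1 : 0 ≤ 2 * (b k).u x := h ▸ min_le_left _ _
      have h2 : 0 ≤ (d k - r) / w := h ▸ min_le_right _ _
      rw [le_div_iff₀ hw] at h2
      rcases min_choice (2 * (b k).u x) ((d k - r) / w) with h3 | h3 <;> rw [h3] at h
      · exact Or.inl ⟨⟨hx, by linarith⟩, hr, by linarith⟩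
      · rw [div_eq_iff hw.ne'] at h
        exact Or.inr ⟨⟨hx, by linarith⟩, by linarith⟩
    · have h1 := hd k
      rintro (⟨⟨hx, h⟩, hr, hr'⟩ | ⟨⟨hx, h⟩, rfl⟩)
      · have e : min (2 * (b k).u x) ((d k - r) / w) = 0 := by
          rw [h, mul_zero]
          exact min_eq_left (div_nonneg (by linarith) hw.le)
        rw [e]
        exact ⟨⟨⟨hx, hr, by linarith⟩, by norm_num⟩, rfl⟩
      · have e : min (2 * (b k).u x) ((d k - d k) / w) = 0 := by
          rw [sub_self, zero_div]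
          exact min_eq_right (by linarith)
        rw [e]
        exact ⟨⟨⟨hx, by linarith, by linarith⟩, by norm_num⟩, rfl⟩
  · refine disjoint_left.2 ?_
    rintro _ ⟨q, hq, rfl⟩ ⟨q', hq', e⟩
    obtain rfl : q' = q := ν.injOn ((ha l).1.sub hq') ((ha k).1.sub hq) e
    obtain ⟨hS, h1⟩ := ((ha k).2.2.1 _).1 hq
    have h2 := (((ha l).2.2.1 _).1 hq').2
    obtain ⟨h3, h4⟩ := le_min_iff.1 (abs_le.1 h1).1
    rw [le_div_iff₀ hw] at h4
    have h5 : 3 ≤ (d l - q'.2) / w := by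
      rw [le_div_iff₀ hw]
      linarith [hlt k l hkl]
    have h6 : |2 * (b l).u q'.1| ≤ 1 := by
      rcases min_choice (2 * (b l).u q'.1) ((d l - q'.2) / w) with h | h
      · rwa [h] at h2
      · rw [h] at h2
        linarith [(abs_le.1 h2).2]
    rw [h _ (hmem l _ hS.1 h6)] at h3
    norm_num at h3
  · refine disjoint_left.2 ?_
    rintro _ ⟨q, hq, rfl⟩ ⟨q', hq', e⟩
    obtain rfl : q' = q := ν.injOn ((ha l).1.sub hq') ((ha k).1.sub hq) e
    obtain ⟨hS, h1⟩ := ((ha k).2.2.1 _).1 hq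
    have h2 := (((ha l).2.2.1 _).1 hq').2
    have h3 := (le_min_iff.1 (abs_le.1 h1).1).1
    have h4 := (le_min_iff.1 (abs_le.1 h2).1).1
    rcases hrk k l hkl h _ hS.1 with e | e <;> linarith

end P073.Wh.Ch
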