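import Vale.Agent.P073Y.Wh.Sk

/-!
# The new walls are near the old ones along a segment to the boundary
-/

open Set Metric Topology Filter

namespace P073.Wh

open P073.Bd (Band I cl)
open P073.Wb P073.Wf

namespace Pn

variable {lo hi y y' z : E3} {m : Fin 3} {v d : ℝ}

theorem side {S : Set E3} (hS : IsPreconnected S) {f : E3 → ℝ} (hf : ContinuousOn f S) {c : ℝ}
    (h : ∀ y ∈ S, f y ≠ c) {a b : E3} (ha : a ∈ S) (hb : b ∈ S) (h1 : c < f a) : c < f b := by
  by_contra h2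
  obtain ⟨y, hy, e⟩ := hS.intermediate_value hb ha hf ⟨not_lt.1 h2, h1.le⟩
  exact h y hy e

theorem ray_left : y ∈ ray y m v := left_mem_segment ℝ _ _

theorem ray_right : Function.update y m v ∈ ray y m v := right_mem_segment ℝ _ _

theorem ray_iff : z ∈ ray y m v ↔ ∃ s ∈ segment ℝ (y m) v, z = Function.update y m s := by
  have key : ∀ a b : ℝ, a + b = 1 →
      a • y + b • Function.update y m v = Function.update y m (a • y m + b • v) := fun a b e => by
    funext k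
    by_cases hk : k = m
    · simp [hk]
    · simp only [Pi.add_apply, Pi.smul_apply, Function.update_of_ne hk, smul_eq_mul]
      rw [← add_mul, e, one_mul]
  exact ⟨fun ⟨a, b, ha, hb, e, h⟩ => ⟨_, ⟨a, b, ha, hb, e, rfl⟩, by rw [← h, key a b e]⟩,
    fun ⟨_, ⟨a, b, ha, hb, e, h⟩, h'⟩ => ⟨a, b, ha, hb, e, by rw [h', ← h, key a b e]⟩⟩

theorem ray_co (hz : z ∈ ray y m v) {k : Fin 3} (hk : k ≠ m) : z k = y k := by
  obtain ⟨s, -, rfl⟩ := ray_iff.1 hz
  exact Function.update_of_ne hk _ _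

theorem ray_sub (hz : z ∈ ray y m v) : ray z m v ⊆ ray y m v := by
  refine (convex_segment _ _).segment_subset hz ?_
  obtain ⟨s, -, rfl⟩ := ray_iff.1 hz
  rw [Function.update_idem]
  exact ray_right

theorem ray_near (h : dist y y' ≤ d) (hz : z ∈ ray y m v) : ∃ z' ∈ ray y' m v, dist z z' ≤ d := by
  obtain ⟨a, b, ha, hb, e, rfl⟩ := hz
  have h1 : dist (Function.update y m v) (Function.update y' m v) ≤ d := by
    refine (dist_pi_le_iff (dist_nonneg.trans h)).2 fun k => ?_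
    by_cases hk : k = m
    · simpa [hk] using dist_nonneg.trans h
    · rw [Function.update_of_ne hk, Function.update_of_ne hk]
      exact (dist_le_pi_dist _ _ k).trans h
  refine ⟨_, ⟨a, b, ha, hb, e, rfl⟩, (dist_add_add_le _ _ _ _).trans ?_⟩
  rw [dist_smul₀, dist_smul₀, Real.norm_of_nonneg ha, Real.norm_of_nonneg hb]
  refine (add_le_add (mul_le_mul_of_nonneg_left h ha) (mul_le_mul_of_nonneg_left h1 hb)).trans ?_
  rw [← add_mul, e, one_mul]

theorem upd_mem (hy : y ∈ Icc lo hi) (hv : v = lo m ∨ v = hi m) :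
    Function.update y m v ∈ Icc lo hi := by
  have h := (hy.1 m).trans (hy.2 m)
  exact ⟨le_update_iff.2 ⟨by rcases hv with e | e <;> simp [e, h], fun k _ => hy.1 k⟩,
    update_le_iff.2 ⟨by rcases hv with e | e <;> simp [e, h], fun k _ => hy.2 k⟩⟩

theorem ray_box (hy : y ∈ Icc lo hi) (hv : v = lo m ∨ v = hi m) : ray y m v ⊆ Icc lo hi :=
  (convex_Icc lo hi).segment_subset hy (upd_mem hy hv)

theorem upd_fr (hy : y ∈ Icc lo hi) (hv : v = lo m ∨ v = hi m) :
    Function.update y m v ∈ frontier (Icc lo hi) := by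
  refine ⟨subset_closure (upd_mem hy hv), fun h => ?_⟩
  rw [← pi_univ_Icc, interior_pi_set finite_univ] at h
  have h1 := h m trivial
  simp only [interior_Icc, Function.update_self] at h1
  exact hv.elim h1.1.ne' h1.2.ne

variable {X : Base} {g g' G : ConHomeo X.Ω (Icc lo hi)} {t : X.ι → ℝ} {lam : ℝ}
  {b : X.ι → Band E3} {x : E3}

theorem cell_sub (c : X.K.ι) : X.K.cell c ⊆ X.Ω := fun _ hx =>
  X.cover ▸ Or.inl (mem_iUnion.2 ⟨c, hx⟩)

/-- a cell which meets a band contains a point of the wall on a wire -/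
theorem wire (h : Wf.Out X g G t lam b) {c : X.K.ι} {i : X.ι} (hx : x ∈ X.K.cell c)
    (h1 : |G.toFun x (X.co i) - t i| ≤ lam) : ∃ p ∈ X.K.cell c, p ∈ lvl G t i ∩ X.K.skel 1 := by
  have hB := (h.nat i x (cell_sub c hx)).1.2 h1
  have h0 : (0 : ℝ) ∈ I := ⟨by norm_num, by norm_num⟩
  obtain ⟨p, ⟨h2, h3⟩, h4⟩ := h.touch i c
    ⟨_, h.wall i ▸ (h.on i).ok.Mmem x hB 0 h0, h.keep i c x hB 0 h0 hx⟩
  exact ⟨p, h3, h2, h4⟩

/-- the preimage of a ray -/
theorem pre (hy : y ∈ Icc lo hi) (hv : v = lo m ∨ v = hi m) :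
    IsPreconnected (g.invFun '' ray y m v) ∧ g.invFun '' ray y m v ⊆ X.Ω ∧
      ∀ x ∈ g.invFun '' ray y m v, g.toFun x ∈ ray y m v :=
  ⟨(convex_segment _ _).isPreconnected.image _ (g.cont_inv.mono (ray_box hy hv)),
    (g.mapsTo_inv.mono_left (ray_box hy hv)).image_subset,
    fun _ ⟨_, h, e⟩ => by rwa [← e, g.right_inv (ray_box hy hv h)]⟩

theorem end_bd (hbd : X.bd = {x ∈ X.Ω | g.toFun x ∈ frontier (Icc lo hi)})
    (he : EqOn g'.toFun g.toFun X.bd) (hy : y ∈ Icc lo hi) (hv : v = lo m ∨ v = hi m) :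
    g'.invFun (Function.update y m v) ∈ X.bd := by
  have h1 := upd_mem hy hv
  have h2 : g.invFun (Function.update y m v) ∈ X.bd := by
    rw [hbd]
    exact ⟨g.mapsTo_inv h1, by rw [g.right_inv h1]; exact upd_fr hy hv⟩
  rwa [← g.right_inv h1, ← he h2, g'.left_inv (g.mapsTo_inv h1)]

theorem orig (hsep : ∀ i j, i ≠ j → X.fam i = X.fam j → t i ≠ t j)
    (hbd : X.bd = {x ∈ X.Ω | g.toFun x ∈ frontier (Icc lo hi)}) (he : EqOn g'.toFun g.toFun X.bd)
    (hc : ∀ c, g'.toFun '' X.K.cell c = g.toFun '' X.K.cell c) (h : Wf.Out X g' G t lam b) :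
    Orig X g G t lam := by
  refine fun c hl i hd x hx => not_le.1 fun h1 => ?_
  have tr : ∀ c j, ∀ p ∈ X.K.cell c, p ∈ lvl g' t j → ¬ Disjoint (lvl g t j) (X.K.cell c) :=
    fun c j p hp hj hd => by
      obtain ⟨q, hq, e⟩ := hc c ▸ mem_image_of_mem g'.toFun hp
      exact disjoint_left.1 hd ⟨cell_sub c hq, e ▸ hj.2⟩ hq
  obtain ⟨p, hp, h2⟩ := wire h hx h1
  obtain ⟨j, hj, hj'⟩ := h.lab i p h2
  obtain ⟨q, hq, e⟩ := hc c ▸ mem_image_of_mem g'.toFun hp
  obtain ⟨m, v, fm, hv, hm, hw⟩ := hl q hq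
  rw [e] at hw
  have hjm : X.co j ≠ m := fun e' => hm (by
    rw [← e', Base.co, show X.fam j = fm from by_contra fun e'' => tr c j p hp hj
      (hw c ⟨_, subset_convexHull ℝ _ ⟨q, hq, e⟩, ray_left⟩ j e'')])
  obtain ⟨l1, l2, l3⟩ := pre (g := g') (g'.mapsTo hj.1) hv
  refine tr c i p hp (hj' _ (fun y hy => ⟨l2 hy, (ray_co (l3 y hy) hjm).trans hj.2⟩) l1
    ⟨_, ray_left, g'.left_inv hj.1⟩
    ⟨_, ⟨_, ray_right, rfl⟩, X.bd_sub (end_bd hbd he (g'.mapsTo hj.1) hv)⟩ ?_ ▸ hj) hd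
  rintro φ ⟨-, c', -, hφ, y', hy', hull⟩
  refine eq_empty_of_forall_notMem ?_
  rintro z ⟨hz, k, l, hkl, hk, hl⟩
  have f : ∀ k, z ∈ lvl g' t k → X.fam k = fm := fun k hk => by_contra fun e' =>
    tr c' k z (hφ hz) hk (hw c' ⟨_, hc c' ▸ hull, l3 y' hy'⟩ k e')
  have e := (f k hk).trans (f l hl).symm
  exact hsep k l hkl e (by rw [← hk.2, ← hl.2, Base.co, Base.co, e])

end Pn

open Pn in
theorem pin : PIN := by
  intro X lo hi g g' G t lam b hlam hsep hbd hcar he hc h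
  refine ⟨fun o x m v fm ho hx hv hm hs hw i => ?_, fun c hd i x hx => not_le.1 fun h1 => ?_,
    orig hsep hbd he hc h⟩
  swap
  · obtain ⟨p, hp, h2⟩ := wire h hx h1
    obtain ⟨j, hj⟩ := h.le.pts i p h2
    obtain ⟨q, hq, e⟩ := hc c ▸ mem_image_of_mem g'.toFun hp
    exact disjoint_left.1 (hd j) ⟨cell_sub c hq, e ▸ hj.2⟩ hq
  set R := ray (g.toFun x) m v
  have hco : ∀ j, X.fam j = fm → X.co j ≠ m := fun j e e' => hm (by rw [← e', Base.co, e])
  have hs' : ∀ c, ∀ y ∈ convexHull ℝ (g'.toFun '' X.K.cell c), ∀ r ∈ R, dist y r ≤ 3 * o →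
      ∀ u ∈ X.K.cell c, dist (g'.toFun u) y ≤ o := fun c y hy r hr hyr u hu => by
    rw [hc c] at hy
    obtain ⟨u', hu', e⟩ := hc c ▸ mem_image_of_mem g'.toFun hu
    refine mem_closedBall'.1 (convexHull_min ?_ (convex_closedBall _ _) hy)
    rintro _ ⟨w, hw, rfl⟩
    exact e ▸ hs c ⟨y, hy, mem_cthickening_of_dist_le _ _ _ _ hr hyr⟩ w hw u' hu'
  have hw' : ∀ j, ∀ p ∈ lvl g' t j, ∀ r ∈ R, dist (g'.toFun p) r ≤ 3 * o → X.fam j = fm :=
    fun j p hp r hr hpr => by_contra fun e => by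
      have := hw j e _ (mem_cthickening_of_dist_le _ _ _ _ hr (hpr.trans (by linarith)))
      rw [hp.2, sub_self, abs_zero] at this
      linarith
  have cell : ∀ y ∈ X.Ω, ∃ c, y ∈ X.K.cell c := fun y hy => mem_iUnion.1 (hcar.ge hy)
  have hxx : dist (g'.toFun x) (g.toFun x) ≤ o := by
    obtain ⟨c, hxc⟩ := cell x hx
    exact hs' c _ (subset_convexHull ℝ _ (hc c ▸ mem_image_of_mem _ hxc)) _ ray_left
      (by rw [dist_self]; linarith) x hxc
  obtain ⟨γ1, γ2, γ3⟩ := pre (g := g') (g'.mapsTo hx) hv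
  have hxγ : x ∈ g'.invFun '' ray (g'.toFun x) m v := ⟨_, ray_left, g'.left_inv hx⟩
  suffices H : 3 * o + lam ≤ |g.toFun x (X.co i) - t i| → lam < |G.toFun x (X.co i) - t i| ∧
      (t i < G.toFun x (X.co i) ↔ t i < g.toFun x (X.co i)) by
    refine ⟨fun h1 => ?_, fun h1 => ?_⟩
    · obtain ⟨h2, h3⟩ := H (le_abs.2 (Or.inl (by linarith)))
      rw [abs_of_pos (sub_pos.2 (h3.2 (by linarith)))] at h2
      linarith
    · obtain ⟨h2, h3⟩ := H (le_abs.2 (Or.inr (by linarith)))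
      rw [abs_of_nonpos (sub_nonpos.2 (not_lt.1 fun h4 => by linarith [h3.1 h4]))] at h2
      linarith
  intro hmar
  have miss : ∀ y ∈ g'.invFun '' ray (g'.toFun x) m v, lam < |G.toFun y (X.co i) - t i| := by
    refine fun y hy => not_le.1 fun h1 => ?_
    obtain ⟨c, hyc⟩ := cell y (γ2 hy)
    obtain ⟨r, hr, hyr⟩ := ray_near hxx (γ3 y hy)
    obtain ⟨p, hp, h2⟩ := wire h hyc h1
    have hpr : dist (g'.toFun p) r ≤ 2 * o := by
      linarith [dist_triangle (g'.toFun p) (g'.toFun y) r, hs' c _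
        (subset_convexHull ℝ _ (mem_image_of_mem _ hyc)) r hr (hyr.trans (by linarith)) p hp]
    obtain ⟨j, hj, hj'⟩ := h.lab i p h2
    have hjm := hco j (hw' j p hj r hr (hpr.trans (by linarith)))
    obtain ⟨l1, l2, l3⟩ := pre (g := g') (g'.mapsTo hj.1) hv
    have e : i = j := by
      refine hj' _ (fun y hy => ⟨l2 hy, (ray_co (l3 y hy) hjm).trans hj.2⟩) l1
        ⟨_, ray_left, g'.left_inv hj.1⟩
        ⟨_, ⟨_, ray_right, rfl⟩, X.bd_sub (end_bd hbd he (g'.mapsTo hj.1) hv)⟩ ?_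
      rintro φ ⟨-, c', -, hφ, y', hy', hull⟩
      obtain ⟨r', hr', hyr'⟩ := ray_near hpr (l3 y' hy')
      refine eq_empty_of_forall_notMem ?_
      rintro z ⟨hz, k, l, hkl, hk, hl⟩
      have hzr : dist (g'.toFun z) r' ≤ 3 * o := by
        linarith [dist_triangle (g'.toFun z) (g'.toFun y') r',
          hs' c' _ hull r' (ray_sub hr hr') (hyr'.trans (by linarith)) z (hφ hz)]
      have e := (hw' k z hk r' (ray_sub hr hr') hzr).trans (hw' l z hl r' (ray_sub hr hr') hzr).symm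
      exact hsep k l hkl e (by rw [← hk.2, ← hl.2, Base.co, Base.co, e])
    subst e
    have h3 := (dist_le_pi_dist _ _ (X.co i)).trans hpr
    rw [hj.2, ray_co hr hjm, dist_comm, Real.dist_eq] at h3
    linarith
  have hb := end_bd hbd he (g'.mapsTo hx) hv
  have cont : ContinuousOn (fun y => G.toFun y (X.co i)) (g'.invFun '' ray (g'.toFun x) m v) :=
    (continuous_apply _).comp_continuousOn (G.cont.mono γ2)
  have ne : ∀ y ∈ g'.invFun '' ray (g'.toFun x) m v, G.toFun y (X.co i) ≠ t i := fun y hy e => by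
    have := miss y hy
    rw [e, sub_self, abs_zero] at this
    linarith
  refine ⟨miss x hxγ, Iff.trans ⟨side γ1 cont ne hxγ ⟨_, ray_right, rfl⟩,
    side γ1 cont ne ⟨_, ray_right, rfl⟩ hxγ⟩ ?_⟩
  rw [h.bd hb, g'.right_inv (upd_mem (g'.mapsTo hx) hv)]
  by_cases e : X.co i = m
  · have ne' : ∀ y ∈ R, y (X.co i) ≠ t i := fun y hy e' => by
      have := hw i (fun e'' => hco i e'' e) y (self_subset_cthickening _ hy)
      rw [e', sub_self, abs_zero] at this
      linarith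
    have k := fun a b => side (S := R) (a := a) (b := b) (convex_segment _ _).isPreconnected
      (continuous_apply (X.co i)).continuousOn ne'
    have k1 := k _ _ ray_left ray_right
    have k2 := k _ _ ray_right ray_left
    rw [e, Function.update_self] at k1 k2 ⊢
    exact ⟨k2, k1⟩
  · rw [Function.update_of_ne e]
    have h3 := abs_le.1 ((dist_le_pi_dist _ _ (X.co i)).trans hxx)
    rcases le_abs.1 hmar with h4 | h4 <;> constructor <;> intro h5 <;> linarith [h3.1, h3.2]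

end P073.Wh
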