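import Vale.Agent.P073Y.Wh.Pin
import Vale.Agent.P073Y.St.Run
import Vale.Agent.P073Y.Fi.Init1s

/-!
# Spreading the points and running the engine, with the additional bounds
-/

open Set Metric Topology Filter MeasureTheory
open scoped NNReal ENNReal

namespace P073.Wh

open P073.Wb P073.St

theorem runh_of {c₀ c : ℝ≥0} (hW : W2H c₀ c) : RUNH c₀ c := by
  intro X lo hi g t lam fro w Λ L' ζ₁ ζ₂ 𝓢 χ hraw hζ₁ hζ₁' hζ₂ hζ₂' hseg hsq hbig hcar
  obtain ⟨g', Θ, hg', hid, hcell, hlvl, hraw', z, hz, hwide⟩ :=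
    Fi.init1s g t hζ₁ hζ₁' hraw hseg
  have hnc := Run.ncard_eq hcell (D := lvl g t) (D' := lvl g' t) (fun i x hx => hx.1) hlvl
  have hsq' : ∀ φ (h : φ ∈ 𝓢),
      Fi.Sqr X fro ((⋃ i, lvl g' t i) ∩ X.K.skel 1) Λ c ζ₂ φ (χ φ h) := fun φ h =>
    { hsq φ h with L_ge := by rw [hnc φ]; exact (hsq φ h).L_ge }
  obtain ⟨G, b, hout, -, -, -, -, hE, hW, hL⟩ :=
    hW X g' t lam fro w z Λ L' ζ₂ 𝓢 χ hraw' hz hζ₂ hζ₂' hwide hsq' hbig
  have hval : ∀ x, g'.toFun x = g.toFun (Θ.invFun x) := fun x => by rw [hg']; rfl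
  have hU : ∀ x ∈ X.Ω, x ∈ X.U → g'.toFun x = g.toFun x := fun x hx hxU => by
    have e1 : Θ.toFun x = x := hid (Or.inl hxU)
    have e2 := Θ.left_inv hx
    rw [e1] at e2
    rw [hval, e2]
  have hpos : (0 : ℝ) < lam := hraw.pos
  have hP := pin X g g' G t lam b hpos (fun i j hij e e' => by
      have := hraw.sep i j hij e
      rw [e', sub_self, abs_zero] at this
      linarith) hraw.bd_eq hcar (fun x hx => hU x (X.ball.1 hx) (X.bd_sub hx))
    (fun c => Subset.antisymm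
      (fun _ ⟨x, hx, e⟩ => ⟨_, Run.inv_mem hcell hx, (hval x).symm.trans e⟩)
      fun _ ⟨x, hx, e⟩ => ⟨_, Run.to_mem hcell hx, by
        rw [hval, Θ.left_inv (Run.cell_sub c hx), e]⟩) hout
  refine ⟨G, fun i => (b i).u, fun x hx => ?_, fun i x hx => (hout.nat i x hx).2,
    fun c s hs => ?_, fun o ho hosc x hx => ?_, fun e he hfro => ⟨hE e he hfro, ?_⟩,
    fun φ h => hW φ h, hL, hP.1, hP.2.1, hP.2.2, fun i x hx => ?_⟩
  · rw [hout.bd hx, hU x (X.ball.1 hx) (X.bd_sub hx)]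
  · refine Run.pw_congr (X.K.ball c).isCompact.isClosed (fun x hx => ?_) (hout.lip c s hs)
    exact Finset.sum_congr rfl fun i _ => (hout.nat i x (Run.cell_sub c hx)).2.symm
  · obtain ⟨c, hc⟩ := mem_iUnion.1 (hcar.ge hx)
    refine ⟨g'.toFun x, g'.mapsTo hx, ?_, fun i κ hκ => ?_⟩
    · rw [hval]
      exact hosc c _ (Run.inv_mem hcell hc) _ hc
    · refine hout.drift i o κ ho (fun c y hy y' hy' => ?_) hκ x hx
      rw [hval, hval, ← Real.dist_eq]
      exact (dist_le_pi_dist _ _ _).trans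
        (hosc c _ (Run.inv_mem hcell hy) _ (Run.inv_mem hcell hy'))
  · intro x y hs hb s
    rw [← hnc e]
    exact Run.rise hout hraw'.gen he hs hb s
  · have hx' : x ∈ X.Ω := X.cover ▸ Or.inr hx
    rw [← hU x hx' hx, ← hout.frozen i x hx]
    exact (hout.nat i x hx').2

end P073.Wh
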