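import Vale.Agent.P073Y.Bd.Sk

/-!
# The model in a cell with a constant which does not depend on the number of circles
-/

open Set Metric Topology Filter
open scoped NNReal

namespace P073.Wh

open P073.Bd (Band I cl Match Sgn Comm Ext PwLip Chart)

/-- the model in a cell, for two families of circles with disjoint bands in each family -/
def CELLH (c₀ : ℝ≥0) : Prop := ∀ {E : Type} [NormedAddCommGroup E] [NormedSpace ℝ E]
  [FiniteDimensional ℝ E] {π α κ : Type} [Finite π] [Finite α] [Finite κ] {C S : Set E}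
  {M₁ M₂ L : ℝ≥0} (X : π → Set E) (home : α → π) (cir : α → κ) (β : α → Band E)
  (fam : κ → Bool) {x₀ : E},
  Chart 3 C S M₁ M₂ → (∀ a, IsCompact (X a) ∧ LocCone (X a)) → ⋃ a, X a = S →
  (∀ a, (β a).Ok ∧ (β a).In (X (home a)) ∧ IsPreconnected (β a).W ∧ x₀ ∉ (β a).B ∧
    LipschitzOnWith L (β a).u (β a).B ∧ ∃ x ∈ (β a).W, X (home a) ∈ 𝓝[S] x) →
  (∀ k, IsCircle (⋃ a, ⋃ (_ : cir a = k), (β a).W)) →
  (∀ a a', cir a = cir a' → Match (β a) (β a')) →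
  (∀ a φ, ∀ x ∈ (β a).B, x ∈ X φ → ∃ a', cir a' = cir a ∧ home a' = φ ∧ x ∈ (β a').B) →
  (∀ a a', cir a ≠ cir a' → Comm (β a) (β a')) →
  (∀ a a', cir a ≠ cir a' → fam (cir a) = fam (cir a') → Disjoint (β a).B (β a').B) → x₀ ∈ S →
  ∃ γ : κ → Band E,
    (∀ k, (γ k).On C ∧ ConBall 2 (γ k).W (⋃ a, ⋃ (_ : cir a = k), (β a).W) ∧
      (γ k).B ∩ S = ⋃ a, ⋃ (_ : cir a = k), (β a).half.B ∧
      LipschitzOnWith (c₀ * M₁ * (M₂ * L + 1)) (γ k).u C) ∧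
    (∀ a, Match (β a).half (γ (cir a))) ∧
    ∀ k l, k ≠ l → Comm (γ k) (γ l) ∧
      ((∀ a a', cir a = k → cir a' = l → Disjoint (β a).B (β a').B) →
        Disjoint (γ k).B (γ l).B) ∧
      ∀ x ∈ (γ k).W ∩ (γ l).W,
        ∃ Z, Z ⊆ (γ k).W ∩ (γ l).W ∧ IsPreconnected Z ∧ x ∈ Z ∧ (Z ∩ S).Nonempty

end P073.Wh
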